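import Vale.Agent.P365.J376.V3

/-!
# P365-T1: the bulk hub (HB) from the NORMAL part and the LONG part
-/

set_option linter.all false

namespace P365T1.HBasm

open P365L P365O P365T1 P365L.TL Matrix Complex MeasureTheory Vale.Agent.P365.J376
open scoped ComplexConjugate ENNReal

variable {D : V3} {N : ℕ} [NeZero N]

/-- off-resonant energy of the four angle functions at `x`, stage `i + 1`, strength `s` -/
noncomputable def FY (D : V3) (N : ℕ) [NeZero N] (E : ℝ) (i : ℕ) (s : ℝ) (l : Tor N → D.Λ)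
    (x : Tor N) : ℝ≥0∞ :=
  ∑ k : Fin 4, ∫⁻ v, ENNReal.ofReal (Yf (AT N) (WV E (D.prof (i + 1) s l) v) (phi N k) x)
    ∂(Measure.pi fun x => D.ν (l x))

/-- energy content of the four angle functions at `x` -/
noncomputable def FM (D : V3) (N : ℕ) [NeZero N] (E : ℝ) (i : ℕ) (s : ℝ) (l : Tor N → D.Λ)
    (x : Tor N) : ℝ≥0∞ :=
  ∑ k : Fin 4, ∫⁻ v, ENNReal.ofReal (Mf (AT N) (WV E (D.prof (i + 1) s l) v) (phi N k) x)
    ∂(Measure.pi fun x => D.ν (l x))

/-- the right side of the hub inequality -/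
noncomputable def FR (D : V3) (N : ℕ) [NeZero N] (E : ℝ) (i : ℕ) (s : ℝ) : ℝ≥0∞ :=
  ∑ l : Tor N → D.Λ, ENNReal.ofReal (∏ x, D.p (l x)) *
    ∑ x, ENNReal.ofReal (D.prof (i + 1) s l x) * FM D N E i s l x

open Classical in
theorem HB_iff {E : ℝ} {i : ℕ} {s ηb c : ℝ} : D.HB N E i s ηb c ↔
    ∑ l : Tor N → D.Λ, ENNReal.ofReal (∏ x, D.p (l x)) *
      ∑ x, ENNReal.ofReal (if D.mov (l x) ∧ ¬ D.cen i l x then D.Ws (i + 1) l x else 0) *
        FY D N E i s l x ≤
    ENNReal.ofReal (ηb / s) * (FR D N E i s + ENNReal.ofReal c) := Iff.rfl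

/-- **(HB) from two parts** -/
theorem HB_of_sum {E : ℝ} {i : ℕ} {s ηN ηL c : ℝ} (hs : 0 < s) (hηN : 0 ≤ ηN) (hηL : 0 ≤ ηL)
    {A B : (Tor N → D.Λ) → Tor N → ℝ≥0∞}
    (hcov : ∀ l x, D.mov (l x) → ¬ D.cen i l x →
      ENNReal.ofReal (D.Ws (i + 1) l x) * FY D N E i s l x ≤ A l x + B l x)
    (hA : ∑ l : Tor N → D.Λ, ENNReal.ofReal (∏ x, D.p (l x)) * ∑ x, A l x ≤
      ENNReal.ofReal (ηN / s) * (FR D N E i s + ENNReal.ofReal c))
    (hB : ∑ l : Tor N → D.Λ, ENNReal.ofReal (∏ x, D.p (l x)) * ∑ x, B l x ≤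
      ENNReal.ofReal (ηL / s) * (FR D N E i s + ENNReal.ofReal c)) :
    D.HB N E i s (ηN + ηL) c := by
  classical
  rw [HB_iff]
  calc ∑ l : Tor N → D.Λ, ENNReal.ofReal (∏ x, D.p (l x)) *
      ∑ x, ENNReal.ofReal (if D.mov (l x) ∧ ¬ D.cen i l x then D.Ws (i + 1) l x else 0) *
        FY D N E i s l x
      ≤ ∑ l : Tor N → D.Λ, ENNReal.ofReal (∏ x, D.p (l x)) * ∑ x, (A l x + B l x) := by
        refine Finset.sum_le_sum fun l _ => mul_le_mul' le_rfl (Finset.sum_le_sum fun x _ => ?_)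
        by_cases h : D.mov (l x) ∧ ¬ D.cen i l x
        · rw [if_pos h]
          exact hcov l x h.1 h.2
        · rw [if_neg h]
          simp
    _ = ∑ l : Tor N → D.Λ, ENNReal.ofReal (∏ x, D.p (l x)) * ∑ x, A l x +
        ∑ l : Tor N → D.Λ, ENNReal.ofReal (∏ x, D.p (l x)) * ∑ x, B l x := by
        rw [← Finset.sum_add_distrib]
        refine Finset.sum_congr rfl fun l _ => ?_
        rw [Finset.sum_add_distrib, mul_add]
    _ ≤ ENNReal.ofReal (ηN / s) * (FR D N E i s + ENNReal.ofReal c) +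
        ENNReal.ofReal (ηL / s) * (FR D N E i s + ENNReal.ofReal c) := add_le_add hA hB
    _ = ENNReal.ofReal ((ηN + ηL) / s) * (FR D N E i s + ENNReal.ofReal c) := by
        rw [← add_mul, ← ENNReal.ofReal_add (by positivity) (by positivity), add_div]

/-- monotonicity in the constants -/
theorem HB_mono {E : ℝ} {i : ℕ} {s η η' c c' : ℝ} (hs : 0 < s) (h : D.HB N E i s η c)
    (hη : η ≤ η') (hc : c ≤ c') : D.HB N E i s η' c' := by
  classical
  rw [HB_iff] at h ⊢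
  refine h.trans (mul_le_mul' (ENNReal.ofReal_le_ofReal ?_) (add_le_add le_rfl
    (ENNReal.ofReal_le_ofReal hc)))
  exact div_le_div_of_nonneg_right hη hs.le

open Classical in
/-- **(HB)** with a trichotomy centre / normal / long: the normal part is bounded without weights -/
theorem HB_of_parts {ρ : Measure ℝ} (h : D.Ok ρ) {E : ℝ} {i : ℕ} (hi : i ≤ D.I)
    {s ηN ηL c : ℝ} (hs : 0 < s) (hηN : 0 ≤ ηN) (hηL : 0 ≤ ηL)
    {NR LG : (Tor N → D.Λ) → Tor N → Prop}
    (hcov : ∀ l x, D.mov (l x) → ¬ D.cen i l x → NR l x ∨ LG l x)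
    (hN : ENNReal.ofReal (2 * (D.e0 i * Real.exp (-(D.a i)))) *
      ∑ l : Tor N → D.Λ, ENNReal.ofReal (∏ x, D.p (l x)) *
        ∑ x, (if NR l x then FY D N E i s l x else 0) ≤
      ENNReal.ofReal (ηN / s) * (FR D N E i s + ENNReal.ofReal c))
    (hL : ∑ l : Tor N → D.Λ, ENNReal.ofReal (∏ x, D.p (l x)) *
        ∑ x, (if D.mov (l x) ∧ ¬ D.cen i l x ∧ LG l x then
          ENNReal.ofReal (D.Ws (i + 1) l x) * FY D N E i s l x else 0) ≤
      ENNReal.ofReal (ηL / s) * (FR D N E i s + ENNReal.ofReal c)) :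
    D.HB N E i s (ηN + ηL) c := by
  refine HB_of_sum hs hηN hηL
    (A := fun l x => ENNReal.ofReal (2 * (D.e0 i * Real.exp (-(D.a i)))) *
      (if NR l x then FY D N E i s l x else 0)) (fun l x hm hc => ?_) ?_ hL
  · rcases hcov l x hm hc with h1 | h1
    · refine le_trans ?_ le_self_add
      rw [if_pos h1]
      exact mul_le_mul' (ENNReal.ofReal_le_ofReal (h.Ws_bulk hi hm hc).2) le_rfl
    · refine le_trans ?_ le_add_self
      rw [if_pos ⟨hm, hc, h1⟩]
  · refine le_trans (le_of_eq ?_) hN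
    rw [Finset.mul_sum]
    refine Finset.sum_congr rfl fun l _ => ?_
    rw [← Finset.mul_sum]
    ring

end P365T1.HBasm
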