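import Vale.Agent.P365.H509.Loc548

/-!
# P365-T1, design v3: switching a closed set, insertion of a pattern into a good block
-/

set_option linter.all false

namespace Vale.Agent.P365.J376

open P365L P365T1 P365T1.Switch

/-! ### blocks of the torus -/

section blocks

variable {N : ℕ} [NeZero N] {m : ℕ}

/-- `c` is the index of a whole block of side `m` -/
def BIn (N m : ℕ) (c : Loc) : Prop := (c.1 + 1) * m ≤ N ∧ (c.2 + 1) * m ≤ N

theorem bIn_bi (hmN : m ∣ N) (x : Tor N) : BIn N m (bi m x) := by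
  have key : ∀ a : ZMod N, (a.val / m + 1) * m ≤ N := by
    intro a
    obtain ⟨q, hq⟩ := hmN
    have h1 := ZMod.val_lt a
    have hm : 0 < m := by
      rcases Nat.eq_zero_or_pos m with h | h
      · exact absurd (by rw [hq, h, zero_mul] : N = 0) (NeZero.ne N)
      · exact h
    have h2 : a.val / m < q := by
      rw [Nat.div_lt_iff_lt_mul hm, mul_comm]
      rwa [← hq]
    calc (a.val / m + 1) * m ≤ q * m := Nat.mul_le_mul_right m h2
      _ = N := by rw [hq, mul_comm]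
  exact ⟨key _, key _⟩

theorem mem_blk' {a : Loc} : a ∈ blk m ↔ a.1 < m ∧ a.2 < m := by
  simp [blk]

theorem val_st1 {c a : Loc} (hc : BIn N m c) (ha : a ∈ blk m) :
    (st N m c a).1.val = c.1 * m + a.1 := by
  rw [mem_blk'] at ha
  have h := hc.1
  rw [add_mul, one_mul] at h
  exact ZMod.val_natCast_of_lt (by omega)

theorem val_st2 {c a : Loc} (hc : BIn N m c) (ha : a ∈ blk m) :
    (st N m c a).2.val = c.2 * m + a.2 := by
  rw [mem_blk'] at ha
  have h := hc.2
  rw [add_mul, one_mul] at h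
  exact ZMod.val_natCast_of_lt (by omega)

theorem bi_st' {c a : Loc} (hc : BIn N m c) (ha : a ∈ blk m) : bi m (st N m c a) = c := by
  have h := mem_blk'.1 ha
  unfold bi
  rw [val_st1 hc ha, val_st2 hc ha]
  have hm : 0 < m := by omega
  rw [Nat.add_comm (c.1 * m), Nat.add_comm (c.2 * m), Nat.add_mul_div_right _ _ hm,
    Nat.add_mul_div_right _ _ hm, Nat.div_eq_of_lt h.1, Nat.div_eq_of_lt h.2, zero_add, zero_add]

theorem lc_st' {c a : Loc} (hc : BIn N m c) (ha : a ∈ blk m) : lc m (st N m c a) = a := by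
  have h := mem_blk'.1 ha
  unfold lc
  rw [val_st1 hc ha, val_st2 hc ha, Nat.add_comm (c.1 * m), Nat.add_comm (c.2 * m),
    Nat.add_mul_mod_self_right, Nat.add_mul_mod_self_right, Nat.mod_eq_of_lt h.1,
    Nat.mod_eq_of_lt h.2]

theorem st_bi_lc (z : Tor N) : st N m (bi m z) (lc m z) = z := by
  unfold st bi lc
  refine Prod.ext ?_ ?_
  · simp only
    rw [Nat.div_add_mod', ZMod.natCast_zmod_val]
  · simp only
    rw [Nat.div_add_mod', ZMod.natCast_zmod_val]

theorem lc_mem_blk (hm : 0 < m) (z : Tor N) : lc m z ∈ blk m :=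
  mem_blk'.2 ⟨Nat.mod_lt _ hm, Nat.mod_lt _ hm⟩

/-- the block of side `m` with index `c` -/
def bset (N m : ℕ) [NeZero N] (c : Loc) : Finset (Tor N) := Finset.univ.filter fun z => bi m z = c

theorem mem_bset {c : Loc} {z : Tor N} : z ∈ bset N m c ↔ bi m z = c := by simp [bset]

/-- products over a block -/
theorem prod_bset {M : Type*} [CommMonoid M] (hm : 0 < m) {c : Loc} (hc : BIn N m c)
    (F : Loc → M) : ∏ z ∈ bset N m c, F (lc m z) = ∏ a ∈ blk m, F a := by
  refine Finset.prod_nbij' (fun z => lc m z) (fun a => st N m c a) ?_ ?_ ?_ ?_ ?_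
  · intro z _
    exact lc_mem_blk hm z
  · intro a ha
    exact mem_bset.2 (bi_st' hc ha)
  · intro z hz
    rw [← mem_bset.1 hz]
    exact st_bi_lc z
  · intro a ha
    exact lc_st' hc ha
  · intro z _
    rfl

theorem card_bset (hm : 0 < m) {c : Loc} (hc : BIn N m c) : (bset N m c).card = m ^ 2 := by
  have h := Finset.card_nbij' (s := bset N m c) (t := blk m) (fun z => lc m z)
    (fun a => st N m c a) (fun z _ => lc_mem_blk hm z) (fun a ha => mem_bset.2 (bi_st' hc ha))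
    (fun z hz => by rw [← mem_bset.1 hz]; exact st_bi_lc z)
    (fun a ha => lc_st' hc ha)
  rw [h, blk, Finset.card_product, Finset.card_range, sq]

end blocks

variable {D : V3} {N : ℕ} [NeZero N] {l : Tor N → D.Λ}

/-- `Mat` depends on the block only -/
theorem V3.Mat.congr {j : ℕ} {z w : Tor N} (h : D.Mat j l z) (hw : bi (D.m j) w = bi (D.m j) z) :
    D.Mat j l w := fun x hx => h x (hx.trans hw)

/-! ### (s1) switching -/

theorem V3.closed_of_block {K : Finset (Tor N)}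
    (hK : ∀ j ≤ D.I, ∀ x ∈ K, D.Mat j l x → ∀ z, bi (D.m j) z = bi (D.m j) x → z ∈ K) :
    D.Closed l K := fun j hj z hz ⟨a, ha, hab⟩ => hK j hj a ha (hz.congr hab) z hab.symm

/-- **(s1)** the profile off a switched region which cuts no matched block -/
theorem prof_swf_K (hgood : ∀ j ≤ D.I, ∀ a, D.pat j a ≠ D.good) {K : Finset (Tor N)}
    (hK : ∀ j ≤ D.I, ∀ x ∈ K, D.Mat j l x → ∀ z, bi (D.m j) z = bi (D.m j) x → z ∈ K) {i : ℕ}
    (hi : i ≤ D.I + 1) (s : ℝ) : ∀ z, z ∉ K → D.prof i s l z = D.prof i s (swf K D.good l) z :=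
  fun _ hz => V3.prof_swf' hgood (V3.closed_of_block hK) hi s hz

/-! ### (s2) insertion of the pattern of family `i` in the block `c` -/

/-- insertion of the pattern of family `i` in the block `c` -/
def V3.ins (D : V3) (i : ℕ) (c : Loc) (l : Tor N → D.Λ) : Tor N → D.Λ := fun z =>
  if bi (D.m i) z = c then D.pat i (lc (D.m i) z) else l z

theorem V3.ins_in {i : ℕ} {c : Loc} {z : Tor N} (h : bi (D.m i) z = c) :
    D.ins i c l z = D.pat i (lc (D.m i) z) := by rw [V3.ins, if_pos h]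

theorem V3.ins_out {i : ℕ} {c : Loc} {z : Tor N} (h : bi (D.m i) z ≠ c) :
    D.ins i c l z = l z := by rw [V3.ins, if_neg h]

/-- the sites of the block are matched after the insertion -/
theorem V3.Mat_ins {i : ℕ} {c : Loc} {z : Tor N} (h : bi (D.m i) z = c) :
    D.Mat i (D.ins i c l) z := fun w hw => V3.ins_in (hw.trans h)

/-- the centre of the inserted block -/
theorem V3.cen_ins {i : ℕ} {c : Loc} (hc : BIn N (D.m i) c) (hy : D.y i ∈ blk (D.m i)) :
    D.cen i (D.ins i c l) (st N (D.m i) c (D.y i)) :=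
  ⟨V3.Mat_ins (bi_st' hc hy), lc_st' hc hy⟩

/-- off the block nothing is matched or unmatched -/
theorem V3.Mat_ins_out (hgood : ∀ j ≤ D.I, ∀ a, D.pat j a ≠ D.good) {i : ℕ}
    (hdis : ∀ j ≤ D.I, j ≠ i → ∀ a a', D.pat j a ≠ D.pat i a') {c : Loc}
    (hl : ∀ z, bi (D.m i) z = c → l z = D.good) {j : ℕ} (hj : j ≤ D.I) {z : Tor N}
    (hz : bi (D.m i) z ≠ c) : D.Mat j (D.ins i c l) z ↔ D.Mat j l z := by
  constructor
  · intro h w hw
    have h1 := h w hw
    by_cases hc : bi (D.m i) w = c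
    · rw [V3.ins_in hc] at h1
      by_cases hji : j = i
      · subst hji
        exact absurd (hw ▸ hc) hz
      · exact absurd h1.symm (hdis j hj hji _ _)
    · rwa [V3.ins_out hc] at h1
  · intro h w hw
    have h1 := h w hw
    by_cases hc : bi (D.m i) w = c
    · rw [hl w hc] at h1
      exact absurd h1.symm (hgood j hj _)
    · rwa [V3.ins_out hc]

theorem V3.wf_ins_out (hgood : ∀ j ≤ D.I, ∀ a, D.pat j a ≠ D.good) {i : ℕ}
    (hdis : ∀ j ≤ D.I, j ≠ i → ∀ a a', D.pat j a ≠ D.pat i a') {c : Loc}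
    (hl : ∀ z, bi (D.m i) z = c → l z = D.good) {j : ℕ} (hj : j ≤ D.I) {z : Tor N}
    (hz : bi (D.m i) z ≠ c) : D.wf j (D.ins i c l) z = D.wf j l z := by
  classical
  have h : D.cen j (D.ins i c l) z ↔ D.cen j l z :=
    and_congr_left fun _ => V3.Mat_ins_out hgood hdis hl hj hz
  unfold V3.wf
  by_cases hc : D.cen j l z
  · rw [if_pos hc, if_pos (h.2 hc)]
  · rw [if_neg hc, if_neg (fun h' => hc (h.1 h')), V3.ins_out hz]

/-- **(s2)** the profile off the inserted block -/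
theorem prof_ins_out (hgood : ∀ j ≤ D.I, ∀ a, D.pat j a ≠ D.good) {i : ℕ}
    (hdis : ∀ j ≤ D.I, j ≠ i → ∀ a a', D.pat j a ≠ D.pat i a') {c : Loc}
    (hl : ∀ z, bi (D.m i) z = c → l z = D.good) {i' : ℕ} (hi' : i' ≤ D.I + 1) (s : ℝ)
    {z : Tor N} (hz : bi (D.m i) z ≠ c) : D.prof i' s (D.ins i c l) z = D.prof i' s l z := by
  have hWs : ∀ {k : ℕ}, k ≤ D.I + 1 → D.Ws k (D.ins i c l) z = D.Ws k l z := by
    intro k hk
    induction k with
    | zero => simp only [V3.Ws]; rw [V3.ins_out hz]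
    | succ k ih =>
      simp only [V3.Ws]
      rw [ih (by omega), V3.wf_ins_out hgood hdis hl (by omega) hz]
  unfold V3.prof V3.us
  rw [hWs hi']
  congr 2
  refine Finset.sum_congr rfl fun j hj => ?_
  rw [Finset.mem_Ico] at hj
  rw [V3.wf_ins_out hgood hdis hl (by omega) hz]

/-- the configuration is recovered -/
theorem swf_ins {i : ℕ} {c : Loc} (hl : ∀ z, bi (D.m i) z = c → l z = D.good) :
    swf (bset N (D.m i) c) D.good (D.ins i c l) = l := by
  funext z
  by_cases h : bi (D.m i) z = c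
  · rw [swf_in (mem_bset.2 h), hl z h]
  · rw [swf_out (fun h' => h (mem_bset.1 h')), V3.ins_out h]

theorem ins_inj {i : ℕ} {c : Loc} {l' : Tor N → D.Λ}
    (hl : ∀ z, bi (D.m i) z = c → l z = D.good) (hl' : ∀ z, bi (D.m i) z = c → l' z = D.good)
    (h : D.ins i c l = D.ins i c l') : l = l' := by
  rw [← swf_ins hl, h, swf_ins hl']

/-- **probability of the insertion**, product form -/
theorem prod_p_ins (hp : ∀ k, 0 ≤ D.p k) (hp1 : D.p D.good ≤ 1) {i : ℕ} (hm : 0 < D.m i)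
    {c : Loc} (hc : BIn N (D.m i) c) (hl : ∀ z, bi (D.m i) z = c → l z = D.good) :
    (∏ a ∈ blk (D.m i), D.p (D.pat i a)) * ∏ z, D.p (l z) ≤ ∏ z, D.p (D.ins i c l z) := by
  classical
  have h1 : ∏ z, D.p (l z) ≤ ∏ z ∈ (bset N (D.m i) c)ᶜ, D.p (l z) := by
    rw [← Finset.prod_mul_prod_compl (bset N (D.m i) c)]
    refine mul_le_of_le_one_left (Finset.prod_nonneg fun _ _ => hp _) ?_
    refine Finset.prod_le_one (fun _ _ => hp _) fun z hz => ?_
    rw [hl z (mem_bset.1 hz)]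
    exact hp1
  have h2 : ∏ z, D.p (D.ins i c l z) = (∏ a ∈ blk (D.m i), D.p (D.pat i a)) *
      ∏ z ∈ (bset N (D.m i) c)ᶜ, D.p (l z) := by
    rw [← Finset.prod_mul_prod_compl (bset N (D.m i) c),
      ← prod_bset hm hc (fun a => D.p (D.pat i a))]
    congr 1
    · refine Finset.prod_congr rfl fun z hz => ?_
      rw [V3.ins_in (mem_bset.1 hz)]
    · refine Finset.prod_congr rfl fun z hz => ?_
      rw [V3.ins_out fun h => (Finset.mem_compl.1 hz) (mem_bset.2 h)]
  rw [h2]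
  exact mul_le_mul_of_nonneg_left h1 (Finset.prod_nonneg fun _ _ => hp _)

/-- **probability of the insertion** -/
theorem prod_p_le_ins (hp : ∀ k, 0 ≤ D.p k) (hp1 : D.p D.good ≤ 1) {i : ℕ} (hm : 0 < D.m i)
    (hpos : ∀ a ∈ blk (D.m i), 0 < D.p (D.pat i a)) {c : Loc} (hc : BIn N (D.m i) c)
    (hl : ∀ z, bi (D.m i) z = c → l z = D.good) :
    ∏ z, D.p (l z) ≤ (∏ a ∈ blk (D.m i), (D.p (D.pat i a))⁻¹) * ∏ z, D.p (D.ins i c l z) := by
  have h := prod_p_ins hp hp1 hm hc hl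
  have h0 : 0 < ∏ a ∈ blk (D.m i), D.p (D.pat i a) := Finset.prod_pos hpos
  rw [Finset.prod_inv_distrib, ← div_eq_inv_mul, le_div_iff₀ h0, mul_comm]
  exact h

/-- a lower bound `q ≤ p (pat i a)` on the block -/
theorem prod_p_le_ins' (hp : ∀ k, 0 ≤ D.p k) (hp1 : D.p D.good ≤ 1) {i : ℕ} (hm : 0 < D.m i)
    {q : ℝ} (hq : 0 < q) (hpos : ∀ a ∈ blk (D.m i), q ≤ D.p (D.pat i a)) {c : Loc}
    (hc : BIn N (D.m i) c) (hl : ∀ z, bi (D.m i) z = c → l z = D.good) :
    ∏ z, D.p (l z) ≤ (q⁻¹) ^ (D.m i ^ 2) * ∏ z, D.p (D.ins i c l z) := by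
  refine (prod_p_le_ins hp hp1 hm (fun a ha => hq.trans_le (hpos a ha)) hc hl).trans ?_
  refine mul_le_mul_of_nonneg_right ?_ (Finset.prod_nonneg fun _ _ => hp _)
  have hcard : (blk (D.m i)).card = D.m i ^ 2 := by
    rw [blk, Finset.card_product, Finset.card_range, sq]
  rw [← hcard, ← Finset.prod_const]
  refine Finset.prod_le_prod (fun a ha => (inv_pos.2 (hq.trans_le (hpos a ha))).le) fun a ha => ?_
  exact inv_anti₀ hq (hpos a ha)

/-- the same in `ENNReal` -/
theorem ofReal_prod_le_ins (hp : ∀ k, 0 ≤ D.p k) (hp1 : D.p D.good ≤ 1) {i : ℕ}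
    (hm : 0 < D.m i) {q : ℝ} (hq : 0 < q) (hpos : ∀ a ∈ blk (D.m i), q ≤ D.p (D.pat i a))
    {c : Loc} (hc : BIn N (D.m i) c) (hl : ∀ z, bi (D.m i) z = c → l z = D.good) :
    ENNReal.ofReal (∏ z, D.p (l z)) ≤
      ENNReal.ofReal ((q⁻¹) ^ (D.m i ^ 2)) * ENNReal.ofReal (∏ z, D.p (D.ins i c l z)) := by
  rw [← ENNReal.ofReal_mul (by positivity)]
  exact ENNReal.ofReal_le_ofReal (prod_p_le_ins' hp hp1 hm hq hpos hc hl)

end Vale.Agent.P365.J376
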