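import Vale.Agent.P365.T1c.V3Swap548

/-!
# P365-T1, design v3: bookkeeping of the label sums (fibres of the switch, insertions)
-/

set_option linter.all false

namespace Vale.Agent.P365.J376

open P365L P365T1 P365T1.Switch MeasureTheory
open scoped ENNReal

/-! ### fibres -/

section fib

variable {ι Λ : Type*} [Fintype ι] [DecidableEq ι] [DecidableEq Λ]

/-- fixed region -/
theorem sum_fib (g : Λ) (K : Finset ι) (T : Finset (ι → Λ)) (F : (ι → Λ) → ℝ≥0∞) :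
    ∑ l ∈ T, F l =
      ∑ l' ∈ T.image (swf K g), ∑ l ∈ T.filter (fun l => swf K g l = l'), F l :=
  (Finset.sum_fiberwise_of_maps_to (fun l hl => Finset.mem_image_of_mem _ hl) F).symm

/-- region which depends on the labels but not on the labels inside it -/
theorem sum_fibK (g : Λ) (K : (ι → Λ) → Finset ι) (T : Finset (ι → Λ)) (F : (ι → Λ) → ℝ≥0∞) :
    ∑ l ∈ T, F l =
      ∑ l' ∈ T.image (fun l => swf (K l) g l), ∑ l ∈ T.filter (fun l => swf (K l) g l = l'), F l :=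
  (Finset.sum_fiberwise_of_maps_to (g := fun l => swf (K l) g l)
    (fun l hl => Finset.mem_image_of_mem _ hl) F).symm

/-- the fibres of the variable region: `K` is constant on them -/
theorem fibK {g : Λ} {K : (ι → Λ) → Finset ι} {T : Finset (ι → Λ)}
    (hK : ∀ l ∈ T, K (swf (K l) g l) = K l) {l l' : ι → Λ}
    (h : l ∈ T.filter (fun l => swf (K l) g l = l')) :
    l ∈ T ∧ K l = K l' ∧ swf (K l') g l = l' ∧ ∀ z ∈ K l', l' z = g := by
  obtain ⟨h1, h2⟩ := Finset.mem_filter.1 h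
  have h3 : K l = K l' := by rw [← h2, hK l h1]
  refine ⟨h1, h3, by rw [← h3, h2], fun z hz => ?_⟩
  rw [← h2, swf_in (h3 ▸ hz)]

/-- sum over a variable region from the bound for each fibre -/
theorem sum_le_fibK {g : Λ} {K : (ι → Λ) → Finset ι} {T : Finset (ι → Λ)}
    {F : (ι → Λ) → ℝ≥0∞} {B : (ι → Λ) → ℝ≥0∞}
    (h : ∀ l' ∈ T.image (fun l => swf (K l) g l),
      ∑ l ∈ T.filter (fun l => swf (K l) g l = l'), F l ≤ B l') :
    ∑ l ∈ T, F l ≤ ∑ l' ∈ T.image (fun l => swf (K l) g l), B l' := by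
  rw [sum_fibK g K T F]
  exact Finset.sum_le_sum h

/-- sums over `x` of sums over regions -/
theorem sum_regions {κ : Type*} [Fintype κ] [DecidableEq κ] {Q : κ → Finset ι} {n : ℕ}
    (hn : ∀ w, (Finset.univ.filter fun x => w ∈ Q x).card ≤ n) (G : ι → ℝ≥0∞) :
    ∑ x, ∑ w ∈ Q x, G w ≤ n * ∑ w, G w := by
  have h1 : ∀ x, ∑ w ∈ Q x, G w = ∑ w, if w ∈ Q x then G w else 0 := by
    intro x
    rw [← Finset.sum_filter]
    congr 1
    ext w
    simp
  simp only [h1]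
  rw [Finset.sum_comm, Finset.mul_sum]
  refine Finset.sum_le_sum fun w _ => ?_
  rw [← Finset.sum_filter, Finset.sum_const, nsmul_eq_mul]
  gcongr
  exact hn w

end fib

/-! ### insertions -/

variable {D : V3} {N : ℕ} [NeZero N]

/-- the centre site of the block `c` of family `i` -/
def V3.ycB (D : V3) (N : ℕ) (i : ℕ) (c : Loc) : Tor N := st N (D.m i) c (D.y i)

open Classical in
/-- **sum over the insertions in one block** -/
theorem sum_ins (hp : ∀ k, 0 ≤ D.p k) (hp1 : D.p D.good ≤ 1) {i : ℕ} (hm : 0 < D.m i) {q : ℝ}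
    (hq : 0 < q) (hpos : ∀ a ∈ blk (D.m i), q ≤ D.p (D.pat i a)) {c : Loc}
    (hc : BIn N (D.m i) c) (hy : D.y i ∈ blk (D.m i)) (T : Finset (Tor N → D.Λ))
    (hT : ∀ l ∈ T, ∀ z, bi (D.m i) z = c → l z = D.good) (A : (Tor N → D.Λ) → ℝ≥0∞) :
    ∑ l ∈ T, ENNReal.ofReal (∏ z, D.p (l z)) * A (D.ins i c l) ≤
      ENNReal.ofReal ((q⁻¹) ^ (D.m i ^ 2)) * ∑ l : Tor N → D.Λ,
        ENNReal.ofReal (∏ z, D.p (l z)) * (if D.cen i l (D.ycB N i c) then A l else 0) := by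
  have h1 : ∑ l ∈ T, ENNReal.ofReal (∏ z, D.p (l z)) * A (D.ins i c l) ≤
      ENNReal.ofReal ((q⁻¹) ^ (D.m i ^ 2)) * ∑ l ∈ T,
        ENNReal.ofReal (∏ z, D.p (D.ins i c l z)) * A (D.ins i c l) := by
    rw [Finset.mul_sum]
    refine Finset.sum_le_sum fun l hl => ?_
    rw [← mul_assoc]
    exact mul_le_mul' (ofReal_prod_le_ins hp hp1 hm hq hpos hc (hT l hl)) le_rfl
  refine h1.trans (mul_le_mul' le_rfl ?_)
  have h2 : ∑ l ∈ T, ENNReal.ofReal (∏ z, D.p (D.ins i c l z)) * A (D.ins i c l) =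
      ∑ l ∈ T.image (D.ins i c), ENNReal.ofReal (∏ z, D.p (l z)) * A l := by
    rw [Finset.sum_image]
    intro l hl l' hl' h
    exact ins_inj (hT l hl) (hT l' hl') h
  rw [h2]
  refine le_trans (Finset.sum_le_sum fun l hl => ?_) (Finset.sum_le_sum_of_subset
    (Finset.subset_univ (T.image (D.ins i c))))
  obtain ⟨l0, hl0, rfl⟩ := Finset.mem_image.1 hl
  rw [if_pos (show D.cen i (D.ins i c l0) (D.ycB N i c) from V3.cen_ins hc hy)]

theorem bi_ycB {i : ℕ} {c : Loc} (hc : BIn N (D.m i) c) (hy : D.y i ∈ blk (D.m i)) :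
    bi (D.m i) (D.ycB N i c) = c := bi_st' hc hy

/-- at most `m²` sites have the same centre -/
theorem sum_ycB {i : ℕ} (hmN : D.m i ∣ N) (hm : 0 < D.m i) (hy : D.y i ∈ blk (D.m i))
    (G : Tor N → ℝ≥0∞) :
    ∑ x : Tor N, G (D.ycB N i (bi (D.m i) x)) ≤ ((D.m i ^ 2 : ℕ) : ℝ≥0∞) * ∑ y, G y := by
  have h1 : ∀ x : Tor N, G (D.ycB N i (bi (D.m i) x)) =
      ∑ w ∈ ({D.ycB N i (bi (D.m i) x)} : Finset (Tor N)), G w := fun x => by
    rw [Finset.sum_singleton]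
  simp only [h1]
  refine sum_regions (Q := fun x : Tor N => ({D.ycB N i (bi (D.m i) x)} : Finset (Tor N)))
    (fun w => ?_) G
  rw [← card_bset hm (bIn_bi hmN w)]
  refine Finset.card_le_card fun x hx => ?_
  have h2 : w = D.ycB N i (bi (D.m i) x) := by simpa using hx
  rw [mem_bset, h2, bi_ycB (bIn_bi hmN x) hy]

open Classical in
/-- **sum over the insertions in the block of `x` and over `x`** -/
theorem sum_x_ins (hp : ∀ k, 0 ≤ D.p k) (hp1 : D.p D.good ≤ 1) {i : ℕ} (hmN : D.m i ∣ N)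
    (hm : 0 < D.m i) {q : ℝ} (hq : 0 < q) (hpos : ∀ a ∈ blk (D.m i), q ≤ D.p (D.pat i a))
    (hy : D.y i ∈ blk (D.m i)) (T : Tor N → Finset (Tor N → D.Λ))
    (hT : ∀ x, ∀ l ∈ T x, ∀ z, bi (D.m i) z = bi (D.m i) x → l z = D.good)
    (M : (Tor N → D.Λ) → Tor N → ℝ≥0∞) :
    ∑ x, ∑ l ∈ T x, ENNReal.ofReal (∏ z, D.p (l z)) *
        M (D.ins i (bi (D.m i) x) l) (D.ycB N i (bi (D.m i) x)) ≤
      ENNReal.ofReal ((D.m i : ℝ) ^ 2 * (q⁻¹) ^ (D.m i ^ 2)) * ∑ l : Tor N → D.Λ,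
        ENNReal.ofReal (∏ z, D.p (l z)) * ∑ y, (if D.cen i l y then M l y else 0) := by
  have h1 : ∀ x, ∑ l ∈ T x, ENNReal.ofReal (∏ z, D.p (l z)) *
        M (D.ins i (bi (D.m i) x) l) (D.ycB N i (bi (D.m i) x)) ≤
      ENNReal.ofReal ((q⁻¹) ^ (D.m i ^ 2)) * ∑ l : Tor N → D.Λ,
        ENNReal.ofReal (∏ z, D.p (l z)) * (if D.cen i l (D.ycB N i (bi (D.m i) x)) then
          M l (D.ycB N i (bi (D.m i) x)) else 0) := fun x =>
    sum_ins hp hp1 hm hq hpos (bIn_bi hmN x) hy (T x) (hT x)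
      (fun l => M l (D.ycB N i (bi (D.m i) x)))
  refine (Finset.sum_le_sum fun x _ => h1 x).trans ?_
  rw [← Finset.mul_sum, Finset.sum_comm]
  rw [mul_comm ((D.m i : ℝ) ^ 2), ENNReal.ofReal_mul (by positivity), mul_assoc]
  refine mul_le_mul' le_rfl ?_
  rw [Finset.mul_sum]
  refine Finset.sum_le_sum fun l _ => ?_
  rw [← Finset.mul_sum]
  have h2 := sum_ycB (D := D) hmN hm hy (fun y => if D.cen i l y then M l y else 0)
  calc ENNReal.ofReal (∏ z, D.p (l z)) * ∑ x, (if D.cen i l (D.ycB N i (bi (D.m i) x)) then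
          M l (D.ycB N i (bi (D.m i) x)) else 0)
      ≤ ENNReal.ofReal (∏ z, D.p (l z)) * (((D.m i ^ 2 : ℕ) : ℝ≥0∞) *
          ∑ y, (if D.cen i l y then M l y else 0)) := mul_le_mul' le_rfl h2
    _ = ENNReal.ofReal ((D.m i : ℝ) ^ 2) * (ENNReal.ofReal (∏ z, D.p (l z)) *
          ∑ y, (if D.cen i l y then M l y else 0)) := by
        rw [ENNReal.ofReal_pow (Nat.cast_nonneg _), ENNReal.ofReal_natCast, Nat.cast_pow]
        ring

/-- weights of the centres: `e0 i ≤ Ws (i+1)`, so `s * e0 i ≤ prof` there -/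
theorem V3.Ok.prof_cen_ge {ρ : Measure ℝ} (h : D.Ok ρ) {i : ℕ} (hi : i ≤ D.I) {s : ℝ}
    (hs : 0 ≤ s) {l : Tor N → D.Λ} {x : Tor N} (hc : D.cen i l x) :
    s * D.e0 i ≤ D.prof (i + 1) s l x :=
  (mul_le_mul_of_nonneg_left (h.Ws_cen hi hc).1 hs).trans (h.s_mul_Ws_le (i + 1) s l x)

/-- weights of the movable sites -/
theorem V3.Ok.prof_mov_ge {ρ : Measure ℝ} (h : D.Ok ρ) {i : ℕ} (hi : i ≤ D.I) {s : ℝ}
    (hs : 0 ≤ s) {l : Tor N → D.Λ} {x : Tor N} (hx : D.mov (l x)) :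
    s * (D.e0 i * Real.exp (-(D.a i))) ≤ D.prof (i + 1) s l x := by
  by_cases hc : D.cen i l x
  · refine le_trans (mul_le_mul_of_nonneg_left ?_ hs) (h.prof_cen_ge hi hs hc)
    exact mul_le_of_le_one_right (h.e0_pos i hi).le
      (Real.exp_le_one_iff.2 (by linarith [h.a_nonneg i hi]))
  · exact (mul_le_mul_of_nonneg_left (h.Ws_bulk hi hx hc).1 hs).trans (h.s_mul_Ws_le (i + 1) s l x)

end Vale.Agent.P365.J376
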