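import Vale.Agent.P365.T1c.NLawDD376

/-!
# P365-T1: the constants of the NORMAL half for the concrete chain, in closed form

`Csw`, `Cev`, `KBm` are bounded by `exp (CK * ..)` with `CK = CK lam E`.
-/

set_option linter.all false

namespace P365T1.H937

open P365L P365O P365T1 P365L.TL Matrix Complex MeasureTheory
open P365T1.Conc P365T1.Lab37 P365T1.Normal P365T1.OneVar P365T1.Bump P365T1.HBasm
open P365T1.Switch
open scoped ComplexConjugate ENNReal

/-! ### the switch -/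

/-- bound of `∑ p_b CuE (D_b)` -/
noncomputable def C0s (lam E : ℝ) : ℝ := 2 + 4 * Real.pi * (lam + |E| + 2) ^ 2 / lam

theorem one_le_C0s {lam : ℝ} (hl : 0 < lam) (E : ℝ) : 1 ≤ C0s lam E := by
  unfold C0s
  have h1 : 0 ≤ 4 * Real.pi * (lam + |E| + 2) ^ 2 / lam := by
    have := Real.pi_pos
    positivity
  linarith

/-- **`∑ p_b CuE (D_b) ≤ C0s`**, uniformly in the labels -/
theorem sum_CuE_le {Mk Wn : Type} [Fintype Mk] [Fintype Wn] {lam τ : ℝ} {q : Mk ⊕ Wn → ℝ}
    {c w : Wn → ℝ} (h : Adm lam τ q c w) (E : ℝ) :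
    ∑ b, ENNReal.ofReal (pL τ q b) * CuE (lam + |E| + 1) (DL lam τ q w b) ≤
      ENNReal.ofReal (C0s lam E) := by
  have hl := h.hlam
  have hpi := Real.pi_pos
  have e1 : ∀ b, ENNReal.ofReal (pL τ q b) * CuE (lam + |E| + 1) (DL lam τ q w b) =
      ENNReal.ofReal (pL τ q b * Cu (lam + |E| + 1) (DL lam τ q w b)) := by
    intro b
    rw [CuE_eq (h.DL_pos b).le, ← ENNReal.ofReal_mul (h.pL_pos b).le]
  have hC : ∀ b, 0 ≤ pL τ q b * Cu (lam + |E| + 1) (DL lam τ q w b) := by
    intro b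
    have h1 := (h.DL_pos b).le
    have h2 := (h.pL_pos b).le
    unfold Cu
    positivity
  rw [Finset.sum_congr rfl fun b _ => e1 b, ← ENNReal.ofReal_sum_of_nonneg fun b _ => hC b]
  refine ENNReal.ofReal_le_ofReal ?_
  have e2 : ∑ b, pL τ q b * Cu (lam + |E| + 1) (DL lam τ q w b) =
      2 * ∑ b, pL τ q b + 2 * Real.pi * (lam + |E| + 2) ^ 2 *
        ∑ b, pL τ q b * DL lam τ q w b := by
    rw [Finset.mul_sum, Finset.mul_sum, ← Finset.sum_add_distrib]
    refine Finset.sum_congr rfl fun b _ => ?_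
    unfold Cu
    ring
  rw [e2, h.pL_sum]
  have h3 : 2 * Real.pi * (lam + |E| + 2) ^ 2 * ∑ b, pL τ q b * DL lam τ q w b ≤
      2 * Real.pi * (lam + |E| + 2) ^ 2 * (2 / lam) :=
    mul_le_mul_of_nonneg_left h.sum_mul_le (by positivity)
  have e3 : 2 * Real.pi * (lam + |E| + 2) ^ 2 * (2 / lam) =
      4 * Real.pi * (lam + |E| + 2) ^ 2 / lam := by ring
  unfold C0s
  linarith

/-- the constant of the down step for the smooth law -/
noncomputable def KdS (lam E : ℝ) : ℝ :=
  max 1 (Kd (lam + |E| + 1) ((2 * (lam - lam * (1 / 16384) / 2))⁻¹)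
    (lam - 2 * (lam * (1 / 16384) / 2)))

theorem one_le_KdS (lam E : ℝ) : 1 ≤ KdS lam E := le_max_left _ _

/-- the constant of the switch -/
noncomputable def C1s (lam E : ℝ) : ℝ := 2 * C0s lam E * KdS lam E

theorem two_le_C1s {lam : ℝ} (hl : 0 < lam) (E : ℝ) : 2 ≤ C1s lam E := by
  unfold C1s
  have h1 := one_le_C0s hl E
  have h2 := one_le_KdS lam E
  have h3 : 2 * 1 * 1 ≤ 2 * C0s lam E * KdS lam E :=
    mul_le_mul (by linarith) h2 (by norm_num) (by linarith)
  linarith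

variable {lam : ℝ} {P : Par} {c : P.Wn → ℝ}

/-- **the constant of the switch is `≤ 2 C1s ^ n`** -/
theorem csw_le (h : Adm lam (1 / 16384) (qC P) c (wC P)) (E : ℝ) (n : ℕ) :
    Csw (pL (1 / 16384) (qC P)) (DL lam (1 / 16384) (qC P) (wC P)) none (lam + |E| + 1)
      ((2 * (lam - lam * (1 / 16384) / 2))⁻¹) (lam - 2 * (lam * (1 / 16384) / 2)) n ≤
      ENNReal.ofReal (2 * C1s lam E ^ n) := by
  have hl := h.hlam
  have h1 := one_le_C0s hl E
  have h2 := one_le_KdS lam E
  have hg := h.good_ge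
  have h3 : ENNReal.ofReal (1 / pL (1 / 16384) (qC P) none) ≤ ENNReal.ofReal 2 := by
    refine ENNReal.ofReal_le_ofReal ?_
    rw [div_le_iff₀ (by linarith)]
    linarith
  unfold Csw
  have h4 : (∑ b, ENNReal.ofReal (pL (1 / 16384) (qC P) b) *
      CuE (lam + |E| + 1) (DL lam (1 / 16384) (qC P) (wC P) b)) ^ n ≤
      ENNReal.ofReal (C0s lam E) ^ n := pow_le_pow_left' (sum_CuE_le h E) n
  calc _ ≤ 2 * ENNReal.ofReal (C0s lam E) ^ n * ENNReal.ofReal 2 ^ n *
        ENNReal.ofReal (KdS lam E) ^ n := by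
        refine mul_le_mul' (mul_le_mul' (mul_le_mul' le_rfl h4) (pow_le_pow_left' h3 n)) ?_
        exact le_rfl
    _ = ENNReal.ofReal (2 * C1s lam E ^ n) := by
        unfold C1s
        rw [ENNReal.ofReal_mul (by norm_num), ENNReal.ofReal_pow (by positivity),
          ENNReal.ofReal_mul (by positivity), ENNReal.ofReal_mul (by norm_num), mul_pow, mul_pow]
        rw [show ENNReal.ofReal 2 = (2 : ℝ≥0∞) by norm_num]
        ring

/-- the same as a pure power -/
theorem csw_le_pow (h : Adm lam (1 / 16384) (qC P) c (wC P)) (E : ℝ) (n : ℕ) :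
    Csw (pL (1 / 16384) (qC P)) (DL lam (1 / 16384) (qC P) (wC P)) none (lam + |E| + 1)
      ((2 * (lam - lam * (1 / 16384) / 2))⁻¹) (lam - 2 * (lam * (1 / 16384) / 2)) n ≤
      ENNReal.ofReal (C1s lam E ^ (n + 1)) := by
  refine (csw_le h E n).trans (ENNReal.ofReal_le_ofReal ?_)
  have h1 := two_le_C1s h.hlam E
  rw [pow_succ, mul_comm]
  exact mul_le_mul_of_nonneg_left h1 (by positivity)

/-! ### the Harnack constant -/

/-- prefactor of `KBm` -/
noncomputable def AK (lam E : ℝ) : ℝ := 8 * (1 + (E ^ 2 + (lam + 2) ^ 2)) / (lam + 1) ^ 2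

/-- base of `KBm` -/
noncomputable def BK (lam E : ℝ) : ℝ := 52488 * C0c E (lam + 1) ^ 2

theorem AK_pos {lam : ℝ} (hl : 0 < lam) (E : ℝ) : 0 < AK lam E := by
  unfold AK
  positivity

theorem BK_pos {lam : ℝ} (hl : 0 < lam) (E : ℝ) : 0 < BK lam E := by
  unfold BK
  have := C0c_pos (E := E) (show 0 < lam + 1 by linarith)
  positivity

/-- **closed form of `KBm`** -/
theorem KBm_eq (hl : 0 < lam) (E : ℝ) {κ ε : ℝ} (hκ : 0 < κ) (hε : 0 < ε) (n : ℕ) :
    KBm E (lam + 1) κ ε n = AK lam E * (BK lam E / (ε ^ 2 * κ)) ^ n := by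
  have hC := C0c_pos (E := E) (show 0 < lam + 1 by linarith)
  have e1 : min (lam + 1) 1 = 1 := min_eq_right (by linarith)
  unfold KBm KB c2c AK BK
  rw [e1, one_mul]
  have hC' := hC.ne'
  have hκ' := hκ.ne'
  have hε' := hε.ne'
  have hl' : lam + 1 ≠ 0 := by linarith
  have e2 : (52488 * C0c E (lam + 1) ^ 2 / (ε ^ 2 * κ)) ^ n =
      52488 ^ n * (C0c E (lam + 1) ^ n) ^ 2 / ((ε ^ n) ^ 2 * κ ^ n) := by
    rw [div_pow, mul_pow, mul_pow, ← pow_mul, ← pow_mul, ← pow_mul, ← pow_mul, mul_comm 2 n]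
  have e3 : (C0c E (lam + 1))⁻¹ ^ n = (C0c E (lam + 1) ^ n)⁻¹ := inv_pow _ _
  rw [e2, e3, show lam + 1 + 1 = lam + 2 by ring]
  have hCn : C0c E (lam + 1) ^ n ≠ 0 := pow_ne_zero _ hC'
  have hεn : ε ^ n ≠ 0 := pow_ne_zero _ hε'
  have hκn : κ ^ n ≠ 0 := pow_ne_zero _ hκ'
  field_simp
  ring

/-- the prefactor of `kapL` -/
noncomputable def cK (lam : ℝ) : ℝ :=
  min 1 ((lam * (1 / 16384) / 2) ^ 2) / (6144 * (lam + 1) ^ 2)

theorem cK_pos (hl : 0 < lam) : 0 < cK lam := by
  unfold cK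
  positivity

theorem kapL_eq (lam : ℝ) (r : ℕ) : kapL lam r = cK lam * Real.exp (-(r : ℝ)) ^ 2 := by
  unfold kapL cK
  ring

/-! ### one exponent for all the constants -/

/-- the exponent -/
noncomputable def CK (lam E : ℝ) : ℝ :=
  2 + Real.log (1 + C1s lam E) + Real.log (1 + |Cev E (gpS lam) (gpS lam)| * (8 * (lam + 1))) +
    Real.log (1 + AK lam E) + Real.log (1 + BK lam E / cK lam)

theorem CK_parts (hl : 0 < lam) (E : ℝ) :
    0 ≤ Real.log (1 + C1s lam E) ∧
      0 ≤ Real.log (1 + |Cev E (gpS lam) (gpS lam)| * (8 * (lam + 1))) ∧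
      0 ≤ Real.log (1 + AK lam E) ∧ 0 ≤ Real.log (1 + BK lam E / cK lam) := by
  have h1 := two_le_C1s hl E
  have h2 := (AK_pos hl E).le
  have h3 : 0 ≤ BK lam E / cK lam := div_nonneg (BK_pos hl E).le (cK_pos hl).le
  have h4 : 0 ≤ |Cev E (gpS lam) (gpS lam)| * (8 * (lam + 1)) := by positivity
  refine ⟨Real.log_nonneg ?_, Real.log_nonneg ?_, Real.log_nonneg ?_, Real.log_nonneg ?_⟩ <;>
    linarith

theorem two_le_CK (hl : 0 < lam) (E : ℝ) : 2 ≤ CK lam E := by
  obtain ⟨h1, h2, h3, h4⟩ := CK_parts hl E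
  unfold CK
  linarith

/-- `Csw ≤ exp (CK (n+1))` -/
theorem csw_le_exp (h : Adm lam (1 / 16384) (qC P) c (wC P)) (E : ℝ) (n : ℕ) :
    Csw (pL (1 / 16384) (qC P)) (DL lam (1 / 16384) (qC P) (wC P)) none (lam + |E| + 1)
      ((2 * (lam - lam * (1 / 16384) / 2))⁻¹) (lam - 2 * (lam * (1 / 16384) / 2)) n ≤
      ENNReal.ofReal (Real.exp (CK lam E * (n + 1))) := by
  refine (csw_le_pow h E n).trans (ENNReal.ofReal_le_ofReal ?_)
  have hl := h.hlam
  have h1 := two_le_C1s hl E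
  obtain ⟨h2, h3, h4, h5⟩ := CK_parts hl E
  have h6 : C1s lam E ≤ Real.exp (CK lam E) := by
    have h7 : Real.log (1 + C1s lam E) ≤ CK lam E := by
      unfold CK
      linarith
    have h8 := Real.exp_le_exp.2 h7
    rw [Real.exp_log (by linarith)] at h8
    linarith
  calc C1s lam E ^ (n + 1) ≤ Real.exp (CK lam E) ^ (n + 1) :=
        pow_le_pow_left₀ (by linarith) h6 _
    _ = Real.exp (CK lam E * (n + 1)) := by
        rw [← Real.exp_nat_mul]
        congr 1
        push_cast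
        ring

/-- `Cev * (8 (lam + 1) ε) ≤ exp CK * ε` -/
theorem cev_le_exp (hl : 0 < lam) (E : ℝ) {ε : ℝ} (hε : 0 ≤ ε) :
    Cev E (gpS lam) (gpS lam) * (8 * (lam + 1) * ε) ≤ Real.exp (CK lam E) * ε := by
  obtain ⟨h2, h3, h4, h5⟩ := CK_parts hl E
  have h7 : Real.log (1 + |Cev E (gpS lam) (gpS lam)| * (8 * (lam + 1))) ≤ CK lam E := by
    unfold CK
    linarith
  have h9 : 0 ≤ |Cev E (gpS lam) (gpS lam)| * (8 * (lam + 1)) := by positivity
  have h8 := Real.exp_le_exp.2 h7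
  rw [Real.exp_log (by linarith)] at h8
  have h10 : Cev E (gpS lam) (gpS lam) * (8 * (lam + 1)) ≤
      |Cev E (gpS lam) (gpS lam)| * (8 * (lam + 1)) :=
    mul_le_mul_of_nonneg_right (le_abs_self _) (by positivity)
  have h11 : Cev E (gpS lam) (gpS lam) * (8 * (lam + 1) * ε) =
      (Cev E (gpS lam) (gpS lam) * (8 * (lam + 1))) * ε := by ring
  rw [h11]
  exact mul_le_mul_of_nonneg_right (by linarith) hε

/-- **`KBm ≤ exp (CK (n+1) (1 + r + x))`** for `ε = exp (-x)` -/
theorem KBm_le_exp (hl : 0 < lam) (E : ℝ) (r n : ℕ) {x : ℝ} (hx : 0 ≤ x) :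
    KBm E (lam + 1) (kapL lam r) (Real.exp (-x)) n ≤
      Real.exp (CK lam E * (n + 1) * (1 + r + x)) := by
  obtain ⟨h2, h3, h4, h5⟩ := CK_parts hl E
  have hA := AK_pos hl E
  have hB := BK_pos hl E
  have hc := cK_pos hl
  have hBc : 0 < BK lam E / cK lam := div_pos hB hc
  rw [KBm_eq hl E (kapL_pos hl r) (Real.exp_pos _), kapL_eq]
  have e1 : BK lam E / (Real.exp (-x) ^ 2 * (cK lam * Real.exp (-(r : ℝ)) ^ 2)) =
      BK lam E / cK lam * Real.exp (2 * x + 2 * r) := by
    rw [Real.exp_neg, Real.exp_neg, Real.exp_add, two_mul, two_mul, Real.exp_add, Real.exp_add]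
    have := Real.exp_pos x
    have := Real.exp_pos (r : ℝ)
    field_simp
  have h6 : AK lam E ≤ Real.exp (Real.log (1 + AK lam E)) := by
    rw [Real.exp_log (by linarith)]
    linarith
  have h7 : BK lam E / cK lam ≤ Real.exp (Real.log (1 + BK lam E / cK lam)) := by
    rw [Real.exp_log (by linarith)]
    linarith
  have h8 : (BK lam E / cK lam * Real.exp (2 * x + 2 * r)) ^ n ≤
      Real.exp (n * (Real.log (1 + BK lam E / cK lam) + (2 * x + 2 * r))) := by
    rw [Real.exp_nat_mul, Real.exp_add (Real.log (1 + BK lam E / cK lam))]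
    exact pow_le_pow_left₀ (by positivity) (mul_le_mul_of_nonneg_right h7 (Real.exp_pos _).le) n
  rw [e1]
  calc AK lam E * (BK lam E / cK lam * Real.exp (2 * x + 2 * r)) ^ n
      ≤ Real.exp (Real.log (1 + AK lam E)) *
        Real.exp (n * (Real.log (1 + BK lam E / cK lam) + (2 * x + 2 * r))) :=
        mul_le_mul h6 h8 (by positivity) (Real.exp_pos _).le
    _ = Real.exp (Real.log (1 + AK lam E) +
        n * (Real.log (1 + BK lam E / cK lam) + (2 * x + 2 * r))) := (Real.exp_add _ _).symm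
    _ ≤ Real.exp (CK lam E * (n + 1) * (1 + r + x)) := by
        refine Real.exp_le_exp.2 ?_
        have hr : (0 : ℝ) ≤ r := Nat.cast_nonneg r
        have hn : (0 : ℝ) ≤ n := Nat.cast_nonneg n
        have k1 : Real.log (1 + AK lam E) ≤ CK lam E := by
          unfold CK
          linarith
        have k2 : Real.log (1 + BK lam E / cK lam) ≤ CK lam E := by
          unfold CK
          linarith
        have k3 := two_le_CK hl E
        have k4 : n * (Real.log (1 + BK lam E / cK lam) + (2 * x + 2 * r)) ≤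
            n * (CK lam E * (1 + r + x)) := by
          refine mul_le_mul_of_nonneg_left ?_ hn
          have k5 : 2 * (x + r) ≤ CK lam E * (x + r) :=
            mul_le_mul_of_nonneg_right k3 (by positivity)
          linarith
        have k6 : CK lam E * 1 ≤ CK lam E * (1 + r + x) :=
          mul_le_mul_of_nonneg_left (by linarith) (by linarith)
        calc Real.log (1 + AK lam E) +
              n * (Real.log (1 + BK lam E / cK lam) + (2 * x + 2 * r))
            ≤ CK lam E * (1 + r + x) + n * (CK lam E * (1 + r + x)) := by linarith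
          _ = CK lam E * (n + 1) * (1 + r + x) := by ring

end P365T1.H937
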