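import Vale.Agent.P365.T1c.HB376
import Vale.Agent.P365.T1c.Cov548
import Vale.Agent.P365.T1.NormW125
import Vale.Agent.P365.T1.LawInst795
import Vale.Agent.P365.T1.HBnumL614

/-!
# P365-T1: the bulk hub (HB) for the concrete chain, from the NORMAL inequality `NormA` and the
LONG sum
-/

set_option linter.all false

namespace P365T1.HBasm

open P365L P365O P365T1 P365L.TL Matrix Complex MeasureTheory Set
open P365T1.Conc P365T1.Lab37 P365T1.Seq P365T1.Peel Vale.Agent.P365.J376 P365SH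
open scoped ComplexConjugate ENNReal

variable {lam E : ℝ} {yf : ℕ → ℤ × ℤ} {Vsf : ℕ → ℤ × ℤ → ℝ} {rs I : ℕ}

/-- the chain of helper795 -/
noncomputable abbrev DC (lam : ℝ) (yf : ℕ → ℤ × ℤ) (Vsf : ℕ → ℤ × ℤ → ℝ) (rs I : ℕ) : V3 :=
  DD (pS yf rs I) (nuD lam yf Vsf rs I)

theorem DC_ok (hrs : 2 ≤ rs) (hy : ∀ r, rs ≤ r → yf r ∈ Xr r) (h : AdmS lam yf Vsf rs I) :
    (DC lam yf Vsf rs I).Ok (nuL lam) := DD_ok hrs hy (lw_DD h)

/-- **NORMAL**, numbers included, for one family and one strength -/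
def NormPart (lam E : ℝ) (yf : ℕ → ℤ × ℤ) (Vsf : ℕ → ℤ × ℤ → ℝ) (rs I N : ℕ) [NeZero N] (i : ℕ)
    (s : ℝ) : Prop :=
  ∃ A1 ε1 K2 : ℝ, 0 ≤ A1 ∧ 0 ≤ ε1 ∧ 0 ≤ K2 ∧
    (DC lam yf Vsf rs I).NormA N E i s (ENNReal.ofReal A1) (ENNReal.ofReal ε1)
      (ENNReal.ofReal K2) ∧
    2 * (ε1 * (25 * (8 * (rr rs i : ℝ)) ^ 2) +
      K2 * Real.exp (3 * (rr rs i : ℝ)) ^ ((8 * rr rs i) ^ 2) * (8 * (rr rs i : ℝ)) ^ 2 *
        Real.exp (-((rr rs i : ℝ) ^ 5))) ≤ 1 / (rr rs i : ℝ) ^ 30 / 2 ∧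
    2 * (Real.exp (-(rr rs i : ℝ)) * Real.exp (-((rr rs i : ℝ) ^ 5))) * A1 ≤
      1 / (rr rs i : ℝ) ^ 30 / 2

open Classical in
/-- **LONG** for one family and one strength -/
def LongPart (lam E : ℝ) (yf : ℕ → ℤ × ℤ) (Vsf : ℕ → ℤ × ℤ → ℝ) (rs I N : ℕ) [NeZero N] (i : ℕ)
    (s : ℝ) : Prop :=
  ∃ n R : ℕ, 3 * n + 3 ≤ 8 * rr rs i ∧ 2 * (8 * rr rs i) ≤ R ∧
    ∑ l : Tor N → (DC lam yf Vsf rs I).Λ,
      ENNReal.ofReal (∏ x, (DC lam yf Vsf rs I).p (l x)) *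
        ∑ x, (if (DC lam yf Vsf rs I).mov (l x) ∧ ¬ (DC lam yf Vsf rs I).cen i l x ∧
            LONG (DC lam yf Vsf rs I).good n R l x then
          ENNReal.ofReal ((DC lam yf Vsf rs I).Ws (i + 1) l x) *
            FY (DC lam yf Vsf rs I) N E i s l x else 0) ≤
      ENNReal.ofReal (1 / (rr rs i : ℝ) ^ 30 / 2 / s) *
        (FR (DC lam yf Vsf rs I) N E i s + ENNReal.ofReal ((N : ℝ) ^ 2))

/-- **(HB) for the concrete chain from the two parts** -/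
theorem hb_of_parts (hrs : 2 ≤ rs) (hy : ∀ r, rs ≤ r → yf r ∈ Xr r)
    (h : AdmS lam yf Vsf rs I) {N : ℕ} [NeZero N] (hN : ∀ i ≤ I, mS rs i ∣ N) {i : ℕ}
    (hi : i ≤ I) {s : ℝ} (hs : s ∈ Ioo (tS rs I (i + 1)) 1)
    (hNorm : NormPart lam E yf Vsf rs I N i s) (hLong : LongPart lam E yf Vsf rs I N i s) :
    (DC lam yf Vsf rs I).HB N E i s (1 / (rr rs i : ℝ) ^ 30) (88 * (N : ℝ) ^ 2) := by
  classical
  obtain ⟨A1, ε1, K2, hA1, hε1, hK2, HA, hnum1, hnum2⟩ := hNorm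
  obtain ⟨n, R, hn, hR, hL⟩ := hLong
  have hok := DC_ok (lam := lam) (yf := yf) (Vsf := Vsf) (I := I) hrs hy h
  have hs0 : 0 < s := (tS_pos rs I (i + 1)).trans hs.1
  have hs1 : s ≤ 1 := hs.2.le
  have hPok : (PP yf rs I).Ok := PP_ok hrs hy I
  have hr1 : 1 ≤ rr rs i := one_le_rr (by omega) i
  have hm : 3 ≤ (DC lam yf Vsf rs I).m i := by
    show 3 ≤ 8 * rr rs i
    omega
  have hN2 : (0 : ℝ) ≤ (N : ℝ) ^ 2 := by positivity
  have hη : (1 : ℝ) / (rr rs i : ℝ) ^ 30 =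
      1 / (rr rs i : ℝ) ^ 30 / 2 + 1 / (rr rs i : ℝ) ^ 30 / 2 := by ring
  have hybl : (DC lam yf Vsf rs I).y i ∈ blk ((DC lam yf Vsf rs I).m i) := by
    obtain ⟨h1, h2⟩ := y_lt hPok i
    exact Finset.mem_product.2 ⟨Finset.mem_range.2 h1, Finset.mem_range.2 h2⟩
  have hN' := hok.hN376 (N := N) E (i := i) hi hs0 hm (hN i hi) hybl
    (fun j _ a => pat_ne_none j a) (q := Real.exp (-(3 * (rr rs i : ℝ)))) (Real.exp_pos _)
    (fun a _ => (pS_pat_DD (lam := lam) (Vsf := Vsf) hi a).ge) hA1 hε1 hK2 HA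
    (ηN := 1 / (rr rs i : ℝ) ^ 30 / 2) (c := (N : ℝ) ^ 2) (by
      have e1 : (Real.exp (-(3 * (rr rs i : ℝ))))⁻¹ = Real.exp (3 * (rr rs i : ℝ)) := by
        rw [← Real.exp_neg, neg_neg]
      have e2 : (((DC lam yf Vsf rs I).m i : ℕ) : ℝ) = 8 * (rr rs i : ℝ) := by
        show ((8 * rr rs i : ℕ) : ℝ) = _
        push_cast
        ring
      rw [e1, e2]
      exact hnum1) (by
      show 2 * s * (e0S rs i * Real.exp (-(aS rs i))) * A1 * (N : ℝ) ^ 2 ≤ _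
      have h1 : 0 ≤ e0S rs i * Real.exp (-(aS rs i)) * A1 := by
        have := e0S_pos rs i
        positivity
      have h2 : 2 * (e0S rs i * Real.exp (-(aS rs i))) * A1 ≤ 1 / (rr rs i : ℝ) ^ 30 / 2 := hnum2
      calc 2 * s * (e0S rs i * Real.exp (-(aS rs i))) * A1 * (N : ℝ) ^ 2
          = s * (2 * (e0S rs i * Real.exp (-(aS rs i))) * A1) * (N : ℝ) ^ 2 := by ring
        _ ≤ 1 * (1 / (rr rs i : ℝ) ^ 30 / 2) * (N : ℝ) ^ 2 := by
            refine mul_le_mul_of_nonneg_right (mul_le_mul hs1 h2 (by linarith) zero_le_one) hN2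
        _ = _ := by ring)
  have hmain := HB_of_parts (N := N) hok (E := E) (i := i) hi hs0
    (ηN := 1 / (rr rs i : ℝ) ^ 30 / 2) (ηL := 1 / (rr rs i : ℝ) ^ 30 / 2) (c := (N : ℝ) ^ 2)
    (by positivity) (by positivity)
    (NR := fun l x => NL (DC lam yf Vsf rs I) i l x)
    (LG := fun l x => LONG (DC lam yf Vsf rs I).good n R l x)
    (fun l x _ _ => Cov.cover hn hR l x) hN' hL
  rw [← hη] at hmain
  exact HB_mono hs0 hmain le_rfl (by nlinarith)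

end P365T1.HBasm
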