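import Vale.Agent.P365.T1c.LongDD376
import Vale.Agent.P365.T1.Flow394

/-!
# P365-T1: (HB) for the concrete chain from the NORMAL part alone
-/

set_option linter.all false

namespace P365T1.HBasm

open P365L P365O P365T1 P365L.TL Matrix Complex MeasureTheory Set
open P365T1.Conc P365T1.Lab37 P365T1.Seq P365T1.Peel Vale.Agent.P365.J376 P365SH
open scoped ComplexConjugate ENNReal

/-- the NORMAL part for all large first radii -/
def NormAll (lam E : ℝ) : Prop :=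
  ∃ R : ℕ, 2 ≤ R ∧ ∀ rs, R ≤ rs → ∀ (yf : ℕ → ℤ × ℤ) (Vsf : ℕ → ℤ × ℤ → ℝ) (I : ℕ),
    (∀ r, rs ≤ r → yf r ∈ Xr r) → AdmS lam yf Vsf rs I → ∀ (N : ℕ) [NeZero N],
      (∀ i ≤ I, mS rs i ∣ N) → ∀ i ≤ I, ∀ s ∈ Ioo (tS rs I (i + 1)) 1,
        NormPart lam E yf Vsf rs I N i s

/-- **(HB) for the concrete chain from the NORMAL part** -/
theorem hb_conc_of {lam : ℝ} (hlam : 0 < lam)
    (hN : ∀ E : ℝ, |E| < 4 + lam → NormAll lam E) : HBconc lam := by
  intro E hE lam' _ yf Vsf R₀ hy _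
  obtain ⟨R1, hR1, h1⟩ := hN E hE
  obtain ⟨R2, hR2, h2⟩ := long_part hlam E
  refine ⟨max (max R1 R2) R₀, fun rs hrs I hA => ⟨0, fun N _ hdvd _ i hi s hs => ?_⟩⟩
  have hy' : ∀ r, rs ≤ r → yf r ∈ Xr r := fun r hr => hy r (by omega)
  exact hb_of_parts (by omega) hy' hA hdvd hi hs
    (h1 rs (by omega) yf Vsf I hy' hA N hdvd i hi s hs)
    (h2 rs (by omega) yf Vsf I hy' hA N i hi s hs)

/-- **T1 from the NORMAL part** -/
theorem flow_of_norm {lam : ℝ} (hlam : 0 < lam)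
    (hN : ∀ E : ℝ, |E| < 4 + lam → NormAll lam E) : FlowIn (nuL lam) lam :=
  flow_in_of_HBconc hlam (hb_conc_of hlam hN)

end P365T1.HBasm
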