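import Mathlib.Analysis.SpecificLimits.Normed
import Mathlib.Analysis.SpecialFunctions.Exp
import Mathlib.Analysis.SpecialFunctions.Trigonometric.Basic

/-!
# P365-T1, numeric half of the NORMAL part of (HB)

With `n = 9 (8 r)^2`, `ε = exp (-X r^2)`: the three constants of the NORMAL inequality against
`exp (-r^5)`.
-/

set_option linter.all false

namespace P365T1.HBnum3

open Filter Topology

/-- `(r+1)^d exp (-r) → 0` -/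
theorem exp_poly (A : ℝ) (d : ℕ) : ∃ R : ℕ, ∀ r : ℕ, R ≤ r →
    A * (r : ℝ) ^ d * Real.exp (-(r : ℝ)) ≤ 1 := by
  have h1 : Tendsto (fun r : ℕ => A * ((r : ℝ) ^ d * Real.exp (-(r : ℝ)))) atTop (𝓝 (A * 0)) :=
    ((Real.tendsto_pow_mul_exp_neg_atTop_nhds_zero d).comp
      tendsto_natCast_atTop_atTop).const_mul A
  rw [mul_zero] at h1
  obtain ⟨R, hR⟩ := eventually_atTop.1 (h1.eventually (gt_mem_nhds (zero_lt_one' ℝ)))
  exact ⟨R, fun r hr => by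
    have := hR r hr
    linarith⟩

/-- a polynomial times `exp (K r^4 - r^5)` is at most `exp (-r)` -/
theorem exp5 (K : ℝ) : ∃ R : ℕ, ∀ r : ℕ, R ≤ r →
    Real.exp (K * (r : ℝ) ^ 4) * Real.exp (-((r : ℝ) ^ 5)) ≤ Real.exp (-(r : ℝ)) := by
  obtain ⟨R, hR⟩ := exists_nat_ge (K + 1)
  refine ⟨R + 1, fun r hr => ?_⟩
  have hr1 : (1 : ℝ) ≤ r := by
    have : 1 ≤ r := by omega
    exact_mod_cast this
  have hrK : K + 1 ≤ r := by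
    refine hR.trans ?_
    have : R ≤ r := by omega
    exact_mod_cast this
  rw [← Real.exp_add]
  refine Real.exp_le_exp.2 ?_
  have h4 : (r : ℝ) ≤ (r : ℝ) ^ 4 := by
    calc (r : ℝ) = (r : ℝ) ^ 1 := (pow_one _).symm
      _ ≤ (r : ℝ) ^ 4 := pow_le_pow_right₀ hr1 (by norm_num)
  have h5 : (r : ℝ) ^ 5 = r * (r : ℝ) ^ 4 := by ring
  have h6 : 0 ≤ (r : ℝ) ^ 4 := by positivity
  rw [h5]
  nlinarith

/-- **(E1)** -/
theorem numE (C : ℝ) (hC : 0 ≤ C) : ∃ R : ℕ, ∀ r : ℕ, R ≤ r →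
    2 * ((4 * Real.exp (C * (((9 * (8 * r) ^ 2 : ℕ) : ℝ) + 1)) *
      (Real.exp C * Real.exp (-((578 * C + 1) * (r : ℝ) ^ 2)) *
        (2 * ((9 * (8 * r) ^ 2 : ℕ) : ℝ)))) * (25 * (8 * (r : ℝ)) ^ 2)) ≤
      1 / (r : ℝ) ^ 30 / 4 := by
  obtain ⟨R, hR⟩ := exp_poly (4 * (2 * (4 * (2 * 576)) * 1600)) 34
  refine ⟨R + 1, fun r hr => ?_⟩
  have h := hR r (by omega)
  have hr1 : (1 : ℝ) ≤ r := by
    have : 1 ≤ r := by omega
    exact_mod_cast this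
  have hr0 : (0 : ℝ) < r := by linarith
  have hn : ((9 * (8 * r) ^ 2 : ℕ) : ℝ) = 576 * (r : ℝ) ^ 2 := by
    push_cast
    ring
  rw [hn]
  have hr2 : (r : ℝ) ≤ (r : ℝ) ^ 2 := by nlinarith
  have e1 : Real.exp (C * (576 * (r : ℝ) ^ 2 + 1)) *
      (Real.exp C * Real.exp (-((578 * C + 1) * (r : ℝ) ^ 2))) ≤ Real.exp (-(r : ℝ)) := by
    rw [← Real.exp_add, ← Real.exp_add]
    refine Real.exp_le_exp.2 ?_
    have : 1 ≤ (r : ℝ) ^ 2 := by nlinarith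
    nlinarith [mul_nonneg hC (sub_nonneg.2 this)]
  have e2 : 2 * ((4 * Real.exp (C * (576 * (r : ℝ) ^ 2 + 1)) *
      (Real.exp C * Real.exp (-((578 * C + 1) * (r : ℝ) ^ 2)) * (2 * (576 * (r : ℝ) ^ 2)))) *
        (25 * (8 * (r : ℝ)) ^ 2)) =
      (2 * (4 * (2 * 576)) * 1600) * (r : ℝ) ^ 4 *
        (Real.exp (C * (576 * (r : ℝ) ^ 2 + 1)) *
          (Real.exp C * Real.exp (-((578 * C + 1) * (r : ℝ) ^ 2)))) := by ring
  rw [e2, show (1 : ℝ) / (r : ℝ) ^ 30 / 4 = 1 / (4 * (r : ℝ) ^ 30) by rw [div_div, mul_comm],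
    le_div_iff₀ (by positivity)]
  calc (2 * (4 * (2 * 576)) * 1600) * (r : ℝ) ^ 4 *
        (Real.exp (C * (576 * (r : ℝ) ^ 2 + 1)) *
          (Real.exp C * Real.exp (-((578 * C + 1) * (r : ℝ) ^ 2)))) * (4 * (r : ℝ) ^ 30)
      ≤ (2 * (4 * (2 * 576)) * 1600) * (r : ℝ) ^ 4 * Real.exp (-(r : ℝ)) * (4 * (r : ℝ) ^ 30) := by
        gcongr
    _ = 4 * (2 * (4 * (2 * 576)) * 1600) * (r : ℝ) ^ 34 * Real.exp (-(r : ℝ)) := by ring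
    _ ≤ 1 := h

/-- the exponent of the target constant is `O (r^4)` -/
theorem expo (C : ℝ) (hC : 0 ≤ C) {r : ℝ} (hr1 : 1 ≤ r) :
    C * (576 * r ^ 2 + 1) + C * (576 * r ^ 2 + 1) * (1 + r + (578 * C + 1) * r ^ 2) +
      3 * r * (64 * r ^ 2) ≤ (577 * C * (578 * C + 4) + 192) * r ^ 4 := by
  have h2 : r ≤ r ^ 2 := by nlinarith
  have h1 : 1 ≤ r ^ 2 := by nlinarith
  have h34 : r ^ 3 ≤ r ^ 4 := by
    have : 0 ≤ r ^ 3 := by positivity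
    nlinarith
  have h24 : r ^ 2 ≤ r ^ 4 := by
    have : r ^ 4 = r ^ 2 * r ^ 2 := by ring
    nlinarith
  have a1 : 576 * r ^ 2 + 1 ≤ 577 * r ^ 2 := by linarith
  have a2 : 1 + (1 + r + (578 * C + 1) * r ^ 2) ≤ (578 * C + 4) * r ^ 2 := by nlinarith
  have a3 : (576 * r ^ 2 + 1) * (1 + (1 + r + (578 * C + 1) * r ^ 2)) ≤
      577 * r ^ 2 * ((578 * C + 4) * r ^ 2) :=
    mul_le_mul a1 a2 (by positivity) (by positivity)
  have a4 := mul_le_mul_of_nonneg_left a3 hC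
  nlinarith

/-- **(K2)** -/
theorem numK (C : ℝ) (hC : 0 ≤ C) : ∃ R : ℕ, ∀ r : ℕ, R ≤ r →
    2 * ((4 * Real.exp (C * (((9 * (8 * r) ^ 2 : ℕ) : ℝ) + 1)) *
      (Real.exp (C * (((9 * (8 * r) ^ 2 : ℕ) : ℝ) + 1) * (1 + r + (578 * C + 1) * (r : ℝ) ^ 2)) *
        ((9 * (8 * r) ^ 2 : ℕ) : ℝ))) * Real.exp (3 * (r : ℝ)) ^ ((8 * r) ^ 2) *
        (8 * (r : ℝ)) ^ 2 * Real.exp (-((r : ℝ) ^ 5))) ≤
      1 / (r : ℝ) ^ 30 / 4 := by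
  obtain ⟨R, hR⟩ := exp_poly (4 * (2 * (4 * 576) * 64)) 34
  obtain ⟨R', hR'⟩ := exp5 (577 * C * (578 * C + 4) + 192)
  refine ⟨max R R' + 1, fun r hr => ?_⟩
  have h := hR r (by omega)
  have h' := hR' r (by omega)
  have hr1 : (1 : ℝ) ≤ r := by
    have : 1 ≤ r := by omega
    exact_mod_cast this
  have hr0 : (0 : ℝ) < r := by linarith
  have hn : ((9 * (8 * r) ^ 2 : ℕ) : ℝ) = 576 * (r : ℝ) ^ 2 := by
    push_cast
    ring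
  have hq : Real.exp (3 * (r : ℝ)) ^ ((8 * r) ^ 2) = Real.exp (3 * (r : ℝ) * (64 * (r : ℝ) ^ 2)) := by
    rw [← Real.exp_nat_mul]
    congr 1
    push_cast
    ring
  rw [hn, hq]
  have e1 : Real.exp (C * (576 * (r : ℝ) ^ 2 + 1)) *
      Real.exp (C * (576 * (r : ℝ) ^ 2 + 1) * (1 + r + (578 * C + 1) * (r : ℝ) ^ 2)) *
      Real.exp (3 * (r : ℝ) * (64 * (r : ℝ) ^ 2)) * Real.exp (-((r : ℝ) ^ 5)) ≤
      Real.exp (-(r : ℝ)) := by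
    refine le_trans ?_ h'
    refine mul_le_mul_of_nonneg_right ?_ (Real.exp_pos _).le
    rw [← Real.exp_add, ← Real.exp_add]
    exact Real.exp_le_exp.2 (expo C hC hr1)
  rw [show (1 : ℝ) / (r : ℝ) ^ 30 / 4 = 1 / (4 * (r : ℝ) ^ 30) by rw [div_div, mul_comm],
    le_div_iff₀ (by positivity)]
  calc 2 * ((4 * Real.exp (C * (576 * (r : ℝ) ^ 2 + 1)) *
      (Real.exp (C * (576 * (r : ℝ) ^ 2 + 1) * (1 + r + (578 * C + 1) * (r : ℝ) ^ 2)) *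
        (576 * (r : ℝ) ^ 2))) * Real.exp (3 * (r : ℝ) * (64 * (r : ℝ) ^ 2)) *
        (8 * (r : ℝ)) ^ 2 * Real.exp (-((r : ℝ) ^ 5))) * (4 * (r : ℝ) ^ 30)
      = 4 * (2 * (4 * 576) * 64) * (r : ℝ) ^ 34 *
        (Real.exp (C * (576 * (r : ℝ) ^ 2 + 1)) *
          Real.exp (C * (576 * (r : ℝ) ^ 2 + 1) * (1 + r + (578 * C + 1) * (r : ℝ) ^ 2)) *
          Real.exp (3 * (r : ℝ) * (64 * (r : ℝ) ^ 2)) * Real.exp (-((r : ℝ) ^ 5))) := by ring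
    _ ≤ 4 * (2 * (4 * 576) * 64) * (r : ℝ) ^ 34 * Real.exp (-(r : ℝ)) :=
        mul_le_mul_of_nonneg_left e1 (by positivity)
    _ ≤ 1 := h

/-- **(A1)** -/
theorem numA (C Dm : ℝ) (hC : 0 ≤ C) (hD : 0 ≤ Dm) : ∃ R : ℕ, ∀ r : ℕ, R ≤ r →
    2 * (Real.exp (-(r : ℝ)) * Real.exp (-((r : ℝ) ^ 5))) *
      (4 * (4 * (2 * ((8 * r : ℕ) : ℝ)) ^ 2 * 2 ^ (9 * (8 * r) ^ 2) +
        ((4 * Real.exp (C * (((9 * (8 * r) ^ 2 : ℕ) : ℝ) + 1)) *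
            (Real.exp C * Real.exp (-((578 * C + 1) * (r : ℝ) ^ 2)) *
              (2 * ((9 * (8 * r) ^ 2 : ℕ) : ℝ)))) * ((9 * (8 * r) ^ 2 : ℕ) : ℝ) +
          (4 * Real.exp (C * (((9 * (8 * r) ^ 2 : ℕ) : ℝ) + 1)) *
            (Real.exp (C * (((9 * (8 * r) ^ 2 : ℕ) : ℝ) + 1) *
              (1 + r + (578 * C + 1) * (r : ℝ) ^ 2)) * ((9 * (8 * r) ^ 2 : ℕ) : ℝ)))) *
          ((2 * ((8 * r : ℕ) : ℝ)) ^ 2 * (Real.pi * Dm)))) ≤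
      1 / (r : ℝ) ^ 30 / 2 := by
  set K0 : ℝ := 577 * C * (578 * C + 4) + 192 with hK0
  have hK00 : 0 ≤ K0 := by positivity
  set B : ℝ := 2 * (4 * (4 * 256 + (4 * (2 * 576) * 576 + 4 * 576) * (256 * (Real.pi * Dm)))) with hB
  have hB0 : 0 ≤ B := by
    have := Real.pi_pos
    positivity
  obtain ⟨R, hR⟩ := exp_poly (2 * B) 36
  obtain ⟨R', hR'⟩ := exp5 (K0 + 576)
  refine ⟨max R R' + 1, fun r hr => ?_⟩
  have h := hR r (by omega)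
  have h' := hR' r (by omega)
  have hr1 : (1 : ℝ) ≤ r := by
    have : 1 ≤ r := by omega
    exact_mod_cast this
  have hr0 : (0 : ℝ) < r := by linarith
  have hpi := Real.pi_pos
  have hn : ((9 * (8 * r) ^ 2 : ℕ) : ℝ) = 576 * (r : ℝ) ^ 2 := by
    push_cast
    ring
  have hm : (2 * ((8 * r : ℕ) : ℝ)) ^ 2 = 256 * (r : ℝ) ^ 2 := by
    push_cast
    ring
  have hr24 : (r : ℝ) ^ 2 ≤ (r : ℝ) ^ 4 := pow_le_pow_right₀ hr1 (by norm_num)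
  have h4 : 0 ≤ (r : ℝ) ^ 4 := by positivity
  set W : ℝ := Real.exp ((K0 + 576) * (r : ℝ) ^ 4) with hW
  have hW0 : 0 < W := Real.exp_pos _
  -- the three exponentials
  have w1 : (2 : ℝ) ^ (9 * (8 * r) ^ 2) ≤ W := by
    have e0 : (2 : ℝ) ≤ Real.exp 1 := by
      have := Real.add_one_le_exp (1 : ℝ)
      linarith
    calc (2 : ℝ) ^ (9 * (8 * r) ^ 2) ≤ (Real.exp 1) ^ (9 * (8 * r) ^ 2) :=
          pow_le_pow_left₀ (by norm_num) e0 _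
      _ = Real.exp (576 * (r : ℝ) ^ 2) := by
          rw [← Real.exp_nat_mul, hn, mul_one]
      _ ≤ W := Real.exp_le_exp.2 (by nlinarith)
  have w2 : Real.exp (C * (576 * (r : ℝ) ^ 2 + 1)) *
      (Real.exp C * Real.exp (-((578 * C + 1) * (r : ℝ) ^ 2))) ≤ W := by
    rw [← Real.exp_add, ← Real.exp_add]
    refine Real.exp_le_exp.2 ?_
    have h1 : 1 ≤ (r : ℝ) ^ 2 := by nlinarith
    have h3 : C * (576 * (r : ℝ) ^ 2 + 1) + (C + -((578 * C + 1) * (r : ℝ) ^ 2)) ≤ 0 := by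
      nlinarith [mul_nonneg hC (sub_nonneg.2 h1)]
    have h5 : 0 ≤ (K0 + 576) * (r : ℝ) ^ 4 := by positivity
    linarith
  have w3 : Real.exp (C * (576 * (r : ℝ) ^ 2 + 1)) *
      Real.exp (C * (576 * (r : ℝ) ^ 2 + 1) * (1 + r + (578 * C + 1) * (r : ℝ) ^ 2)) ≤ W := by
    rw [← Real.exp_add]
    refine Real.exp_le_exp.2 ?_
    have h1 := expo C hC hr1
    have h2 : 0 ≤ 3 * (r : ℝ) * (64 * (r : ℝ) ^ 2) := by positivity
    have h5 : (K0 + 576) * (r : ℝ) ^ 4 = K0 * (r : ℝ) ^ 4 + 576 * (r : ℝ) ^ 4 := by ring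
    rw [h5]
    nlinarith
  rw [hn, hm]
  have hmain : 4 * (4 * (256 * (r : ℝ) ^ 2) * 2 ^ (9 * (8 * r) ^ 2) +
      ((4 * Real.exp (C * (576 * (r : ℝ) ^ 2 + 1)) *
          (Real.exp C * Real.exp (-((578 * C + 1) * (r : ℝ) ^ 2)) * (2 * (576 * (r : ℝ) ^ 2)))) *
            (576 * (r : ℝ) ^ 2) +
        (4 * Real.exp (C * (576 * (r : ℝ) ^ 2 + 1)) *
          (Real.exp (C * (576 * (r : ℝ) ^ 2 + 1) * (1 + r + (578 * C + 1) * (r : ℝ) ^ 2)) *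
            (576 * (r : ℝ) ^ 2)))) * (256 * (r : ℝ) ^ 2 * (Real.pi * Dm))) ≤
      B / 2 * (r : ℝ) ^ 6 * W := by
    have h26 : (r : ℝ) ^ 2 ≤ (r : ℝ) ^ 6 := pow_le_pow_right₀ hr1 (by norm_num)
    have h46 : (r : ℝ) ^ 4 ≤ (r : ℝ) ^ 6 := pow_le_pow_right₀ hr1 (by norm_num)
    have t1 : 4 * (256 * (r : ℝ) ^ 2) * 2 ^ (9 * (8 * r) ^ 2) ≤ 4 * 256 * (r : ℝ) ^ 6 * W := by
      calc 4 * (256 * (r : ℝ) ^ 2) * 2 ^ (9 * (8 * r) ^ 2)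
          ≤ 4 * (256 * (r : ℝ) ^ 6) * W := by gcongr
        _ = _ := by ring
    have t2 : ((4 * Real.exp (C * (576 * (r : ℝ) ^ 2 + 1)) *
          (Real.exp C * Real.exp (-((578 * C + 1) * (r : ℝ) ^ 2)) * (2 * (576 * (r : ℝ) ^ 2)))) *
            (576 * (r : ℝ) ^ 2)) * (256 * (r : ℝ) ^ 2 * (Real.pi * Dm)) ≤
        (4 * (2 * 576) * 576) * (256 * (Real.pi * Dm)) * (r : ℝ) ^ 6 * W := by
      have e : ((4 * Real.exp (C * (576 * (r : ℝ) ^ 2 + 1)) *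
          (Real.exp C * Real.exp (-((578 * C + 1) * (r : ℝ) ^ 2)) * (2 * (576 * (r : ℝ) ^ 2)))) *
            (576 * (r : ℝ) ^ 2)) * (256 * (r : ℝ) ^ 2 * (Real.pi * Dm)) =
          (4 * (2 * 576) * 576) * (256 * (Real.pi * Dm)) * (r : ℝ) ^ 6 *
          (Real.exp (C * (576 * (r : ℝ) ^ 2 + 1)) *
            (Real.exp C * Real.exp (-((578 * C + 1) * (r : ℝ) ^ 2)))) := by ring
      rw [e]
      exact mul_le_mul_of_nonneg_left w2 (by positivity)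
    have t3 : (4 * Real.exp (C * (576 * (r : ℝ) ^ 2 + 1)) *
          (Real.exp (C * (576 * (r : ℝ) ^ 2 + 1) * (1 + r + (578 * C + 1) * (r : ℝ) ^ 2)) *
            (576 * (r : ℝ) ^ 2))) * (256 * (r : ℝ) ^ 2 * (Real.pi * Dm)) ≤
        4 * 576 * (256 * (Real.pi * Dm)) * (r : ℝ) ^ 6 * W := by
      have e : (4 * Real.exp (C * (576 * (r : ℝ) ^ 2 + 1)) *
          (Real.exp (C * (576 * (r : ℝ) ^ 2 + 1) * (1 + r + (578 * C + 1) * (r : ℝ) ^ 2)) *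
            (576 * (r : ℝ) ^ 2))) * (256 * (r : ℝ) ^ 2 * (Real.pi * Dm)) =
          4 * 576 * (256 * (Real.pi * Dm)) * (r : ℝ) ^ 4 *
          (Real.exp (C * (576 * (r : ℝ) ^ 2 + 1)) *
            Real.exp (C * (576 * (r : ℝ) ^ 2 + 1) * (1 + r + (578 * C + 1) * (r : ℝ) ^ 2))) := by
        ring
      rw [e]
      exact mul_le_mul (mul_le_mul_of_nonneg_left h46 (by positivity)) w3 (by positivity)
        (by positivity)
    have e : B / 2 * (r : ℝ) ^ 6 * W = 4 * (4 * 256 * (r : ℝ) ^ 6 * W +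
        ((4 * (2 * 576) * 576) * (256 * (Real.pi * Dm)) * (r : ℝ) ^ 6 * W +
          4 * 576 * (256 * (Real.pi * Dm)) * (r : ℝ) ^ 6 * W)) := by
      rw [hB]
      ring
    rw [e, add_mul]
    linarith
  have hexp1 : Real.exp (-(r : ℝ)) ≤ 1 := Real.exp_le_one_iff.2 (by linarith)
  rw [show (1 : ℝ) / (r : ℝ) ^ 30 / 2 = 1 / (2 * (r : ℝ) ^ 30) by rw [div_div, mul_comm],
    le_div_iff₀ (by positivity)]
  calc 2 * (Real.exp (-(r : ℝ)) * Real.exp (-((r : ℝ) ^ 5))) * _ * (2 * (r : ℝ) ^ 30)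
      ≤ 2 * (Real.exp (-(r : ℝ)) * Real.exp (-((r : ℝ) ^ 5))) * (B / 2 * (r : ℝ) ^ 6 * W) *
        (2 * (r : ℝ) ^ 30) := by
        refine mul_le_mul_of_nonneg_right (mul_le_mul_of_nonneg_left hmain ?_) ?_ <;> positivity
    _ = (2 * B) * (r : ℝ) ^ 36 * (Real.exp (-(r : ℝ)) * (W * Real.exp (-((r : ℝ) ^ 5)))) := by ring
    _ ≤ (2 * B) * (r : ℝ) ^ 36 * (Real.exp (-(r : ℝ)) * 1) := by
        refine mul_le_mul_of_nonneg_left ?_ (by positivity)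
        refine mul_le_mul_of_nonneg_left (h'.trans hexp1) (Real.exp_pos _).le
    _ ≤ 1 := by rw [mul_one]; exact h

/-- **all numbers of the NORMAL part** -/
theorem num_all (C Dm : ℝ) (hC : 0 ≤ C) (hD : 0 ≤ Dm) : ∃ R : ℕ, ∀ r : ℕ, R ≤ r →
    ∀ x : ℝ, x = (578 * C + 1) * (r : ℝ) ^ 2 → ∀ n : ℕ, n = 9 * (8 * r) ^ 2 →
    ∀ ε1 K2 A1 : ℝ, ε1 = 4 * Real.exp (C * (n + 1)) * (Real.exp C * Real.exp (-x) * (2 * n)) →
      K2 = 4 * Real.exp (C * (n + 1)) * (Real.exp (C * (n + 1) * (1 + r + x)) * n) →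
      A1 = 4 * (4 * (2 * ((8 * r : ℕ) : ℝ)) ^ 2 * 2 ^ n +
        (ε1 * n + K2) * ((2 * ((8 * r : ℕ) : ℝ)) ^ 2 * (Real.pi * Dm))) →
      0 ≤ x ∧ Real.exp (-x) ≤ 1 / 2 ∧ 0 ≤ ε1 ∧ 0 ≤ K2 ∧ 0 ≤ A1 ∧
      2 * (ε1 * (25 * (8 * (r : ℝ)) ^ 2) + K2 * Real.exp (3 * (r : ℝ)) ^ ((8 * r) ^ 2) *
        (8 * (r : ℝ)) ^ 2 * Real.exp (-((r : ℝ) ^ 5))) ≤ 1 / (r : ℝ) ^ 30 / 2 ∧
      2 * (Real.exp (-(r : ℝ)) * Real.exp (-((r : ℝ) ^ 5))) * A1 ≤ 1 / (r : ℝ) ^ 30 / 2 := by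
  obtain ⟨R1, h1⟩ := numE C hC
  obtain ⟨R2, h2⟩ := numK C hC
  obtain ⟨R3, h3⟩ := numA C Dm hC hD
  refine ⟨max (max R1 R2) R3 + 1, ?_⟩
  rintro r hr x rfl n rfl ε1 K2 A1 rfl rfl rfl
  have a1 := h1 r (by omega)
  have a2 := h2 r (by omega)
  have a3 := h3 r (by omega)
  have hpi := Real.pi_pos
  have hr1 : (1 : ℝ) ≤ r := by
    have : 1 ≤ r := by omega
    exact_mod_cast this
  have hx : (1 : ℝ) ≤ (578 * C + 1) * (r : ℝ) ^ 2 := by nlinarith [sq_nonneg (r : ℝ)]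
  refine ⟨by linarith, ?_, by positivity, by positivity, by positivity, ?_, a3⟩
  · have e0 : (2 : ℝ) ≤ Real.exp ((578 * C + 1) * (r : ℝ) ^ 2) := by
      have := Real.add_one_le_exp ((578 * C + 1) * (r : ℝ) ^ 2)
      linarith
    rw [Real.exp_neg, inv_eq_one_div]
    exact one_div_le_one_div_of_le (by norm_num) e0
  · rw [mul_add]
    linarith

end P365T1.HBnum3
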