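import Vale.Agent.P365.T1.LawInst795
import Vale.Agent.P365.T1.HCDD77

/-!
# P365-T1: the flow for the uniform law from the bulk hub of the concrete chain

The centre hub `hc_dd`, the label laws, the costs and the sums are all in place; what is left is the
bulk hub `(HB)` for the chain `DD` with the concrete masses and laws.
-/

set_option linter.all false

namespace P365T1.Conc

open P365L P365L.TL P365SH Vale.Agent.P365.C937 Vale.Agent.P365.J376 MeasureTheory P365T1.Seq Set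
open P365T1.Lab37 P365T1.Bump
open scoped ENNReal

/-- **(HB) for the concrete chain**: the statement which is used -/
def HBdd (lam : ℝ) : Prop :=
  ∀ E lam' : ℝ, |E| < 4 + lam → lam' < lam → ∃ R : ℕ, 2 ≤ R ∧ ∀ rs, R ≤ rs →
    ∀ (I : ℕ) (yf : ℕ → ℤ × ℤ) (c : (PP yf rs I).Wn → ℝ), (∀ a, |c a| ≤ lam') →
      (∀ r, rs ≤ r → yf r ∈ Xr r) → ∃ N₁ : ℕ, ∀ N, N₁ ≤ N → (∀ i ≤ I, mS rs i ∣ N) →
        ∀ _ : NeZero N, ∀ i ≤ I, ∀ s ∈ Ioo (tS rs I (i + 1)) 1,
          (DD (pL (1 / 16384) (qC (PP yf rs I)))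
            (nuT lam (1 / 16384) (qC (PP yf rs I)) c (wC (PP yf rs I)))).HB N E i s
              (1 / (rr rs i : ℝ) ^ 30) (88 * (N : ℝ) ^ 2)

/-- **the flow for the uniform law from (HB) for the concrete chain** -/
theorem flow_in_of_hb {lam : ℝ} (hlam : 0 < lam) (hb : HBdd lam) : FlowIn (nuL lam) lam := by
  refine flow_in_of_hubs hlam fun E hE => ?_
  obtain ⟨lam', yf, Vsf, R, hl0, hl1, hR, hy, hV, hc⟩ :=
    hc_dd hlam hE (l0_pos hlam) (two_l0_le hlam)
  obtain ⟨R', hR', hB⟩ := hb E lam' hE hl1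
  refine ⟨yf, Vsf, lam', max R R', hl1, fun r hr => hy r ((le_max_left _ _).trans hr),
    fun r _ z => hV r z, fun rs hrs I hA => ?_⟩
  have h1 : R ≤ rs := (le_max_left _ _).trans hrs
  have h2 : R' ≤ rs := (le_max_right _ _).trans hrs
  obtain ⟨N₁, hN₁⟩ := hB rs h2 I yf (cS yf Vsf rs I) (fun a => hV _ _)
    fun r hr => hy r (h1.trans hr)
  refine ⟨N₁, fun N hN hdvd hz => ⟨?_, fun i hi s hs => hN₁ N hN hdvd hz i hi s hs⟩⟩
  exact hc rs h1 I (nuL lam) _ _ (lw_DD hA) (fun k hk => nuD_mov' hA hk)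
    (fun i hi z => nuD_win hi z) N hdvd

end P365T1.Conc
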