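import Vale.Agent.P365.T1.HCDD77
import Vale.Agent.P365.T1.LabAdm37
import Vale.Agent.P365.T1c.Book548

/-!
# P365-T1: bounds of the profiles and supports for the concrete chain
-/

set_option linter.all false

namespace P365T1.HBasm

open P365L P365SH P365T1.Conc P365T1.Seq P365T1.Lab37 Vale.Agent.P365.C937
open Vale.Agent.P365.J376 MeasureTheory Set

/-! ### general facts -/

section gen

variable {D : V3} {ρ : Measure ℝ} {N : ℕ} [NeZero N]

/-- the profile of a site with a window or rest label is the background absorption -/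
theorem prof_of_not_mov (h : D.Ok ρ) {i : ℕ} (hi : i ≤ D.I + 1) (s : ℝ) {l : Tor N → D.Λ}
    {z : Tor N} (hz : ¬ D.mov (l z)) : D.prof i s l z = D.b := by
  unfold V3.prof V3.us
  rw [h.Ws_of_not_mov hi hz, mul_zero, add_zero, Finset.sum_eq_zero, add_zero]
  intro j hj
  rw [Finset.mem_Ico] at hj
  rw [h.wf_of_not_mov (by omega) hz, mul_zero]

/-- support bound from a bound of the profile -/
theorem supp_of_le {ν : Measure ℝ} {lam E P : ℝ} (hν : ν (Icc (-lam) lam)ᶜ = 0) :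
    ∀ᵐ u ∂ν, |u - E| + P ≤ lam + |E| + P := by
  rw [ae_iff]
  refine measure_mono_null ?_ hν
  intro u hu hu'
  refine hu ?_
  have h1 : |u| ≤ lam := abs_le.2 hu'
  have h2 : |u - E| ≤ |u| + |E| := abs_sub _ _
  linarith

end gen

/-! ### the concrete chain -/

section DD

variable {yf : ℕ → ℤ × ℤ} {rs I : ℕ} {p : (PP yf rs I).Lb → ℝ}
  {ν : (PP yf rs I).Lb → Measure ℝ} {ρ : Measure ℝ} {N : ℕ} [NeZero N] {i : ℕ} {s : ℝ}

/-- **upper bound of the profile**: `3 exp (-(r i))` -/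
theorem prof_DD_le (hrs : 2 ≤ rs) (h : (DD p ν).Ok ρ) (hi : i ≤ I) (hs : 0 ≤ s) (hs1 : s ≤ 1)
    (l : Tor N → (DD p ν).Λ) (z : Tor N) : (DD p ν).prof (i + 1) s l z ≤ 3 * e0S rs i := by
  refine P365T1.Link.prof_le h (show i ≤ (DD p ν).I from hi) ?_ hs hs1 l z
  have h1 := tail_e0S hrs hi
  show bS rs I + (∑ j ∈ Finset.Ico (i + 1) (I + 1), e0S rs j) + 2 * e0S rs i ≤ 3 * e0S rs i
  linarith

theorem three_exp_le (hrs : 2 ≤ rs) (i : ℕ) : 3 * e0S rs i ≤ 1 / 2 := by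
  have h1 := two_le_cast_rr hrs i
  have h2 : e0S rs i ≤ Real.exp (-2) := Real.exp_le_exp.2 (by linarith)
  have h3 : Real.exp (-2) * 6 ≤ 1 := by
    have h4 : (2.7 : ℝ) ≤ Real.exp 1 := by
      have := Real.exp_one_gt_d9
      linarith
    have h5 : (6 : ℝ) ≤ Real.exp 2 := by
      have h6 : Real.exp 2 = Real.exp 1 * Real.exp 1 := by rw [← Real.exp_add]; norm_num
      rw [h6]
      nlinarith
    rw [Real.exp_neg, ← div_eq_inv_mul, div_le_one (Real.exp_pos _)]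
    exact h5
  linarith

/-- **the profile is at most `1 / 2`** -/
theorem prof_DD_half (hrs : 2 ≤ rs) (h : (DD p ν).Ok ρ) (hi : i ≤ I) (hs : 0 ≤ s) (hs1 : s ≤ 1)
    (l : Tor N → (DD p ν).Λ) (z : Tor N) : (DD p ν).prof (i + 1) s l z ≤ 1 / 2 :=
  (prof_DD_le hrs h hi hs hs1 l z).trans (three_exp_le hrs i)

/-- **the profile is at most `1`** -/
theorem prof_DD_one (hrs : 2 ≤ rs) (h : (DD p ν).Ok ρ) (hi : i ≤ I) (hs : 0 ≤ s) (hs1 : s ≤ 1)
    (l : Tor N → (DD p ν).Λ) (z : Tor N) : (DD p ν).prof (i + 1) s l z ≤ 1 :=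
  (prof_DD_half hrs h hi hs hs1 l z).trans (by norm_num)

/-- the profile is positive -/
theorem prof_DD_pos (h : (DD p ν).Ok ρ) (hi : i ≤ I) (hs : 0 ≤ s) (l : Tor N → (DD p ν).Λ)
    (z : Tor N) : 0 < (DD p ν).prof (i + 1) s l z :=
  h.prof_pos (show i + 1 ≤ I + 1 by omega) hs l z

/-- **lower bound of the profile at the movable sites** -/
theorem prof_DD_ge (h : (DD p ν).Ok ρ) (hi : i ≤ I) (hs : 0 ≤ s) {l : Tor N → (DD p ν).Λ}
    {z : Tor N} (hz : (DD p ν).mov (l z)) :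
    s * (e0S rs i * Real.exp (-(aS rs i))) ≤ (DD p ν).prof (i + 1) s l z :=
  h.prof_mov_ge (show i ≤ (DD p ν).I from hi) hs hz

/-- the same for the whole stage: `exp (-(8 r^20))` -/
theorem prof_DD_ge' (hrs : 2 ≤ rs) (h : (DD p ν).Ok ρ) (hi : i ≤ I) (hs : tS rs I (i + 1) ≤ s)
    {l : Tor N → (DD p ν).Λ} {z : Tor N} (hz : (DD p ν).mov (l z)) :
    Real.exp (-(8 * (rr rs i : ℝ) ^ 20)) ≤ (DD p ν).prof (i + 1) s l z := by
  have h0 : 0 ≤ s := (tS_pos rs I (i + 1)).le.trans hs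
  refine ((own_ge hrs hi).trans ?_).trans (prof_DD_ge h hi h0 hz)
  have h1 : 0 ≤ e0S rs i * Real.exp (-(aS rs i)) :=
    mul_nonneg (e0S_pos rs i).le (Real.exp_pos _).le
  exact mul_le_mul_of_nonneg_right hs h1

/-- **(a)** support bound, `L = lam + |E| + 1` -/
theorem supp_DD_one (hrs : 2 ≤ rs) (h : (DD p ν).Ok ρ) (hi : i ≤ I) (hs : 0 ≤ s) (hs1 : s ≤ 1)
    {lam : ℝ} (hν : ∀ k, ν k (Icc (-lam) lam)ᶜ = 0) (E : ℝ) (l : Tor N → (DD p ν).Λ)
    (k : (PP yf rs I).Lb) (z : Tor N) :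
    ∀ᵐ u ∂ν k, |u - E| + (DD p ν).prof (i + 1) s l z ≤ lam + |E| + 1 := by
  filter_upwards [supp_of_le (E := E) (P := (DD p ν).prof (i + 1) s l z) (hν k)] with u hu
  have := prof_DD_one hrs h hi hs hs1 l z
  linarith

/-- **(a)** support bound, `L = lam + |E| + 4` -/
theorem supp_DD (hrs : 2 ≤ rs) (h : (DD p ν).Ok ρ) (hi : i ≤ I) (hs : 0 ≤ s) (hs1 : s ≤ 1)
    {lam : ℝ} (hν : ∀ k, ν k (Icc (-lam) lam)ᶜ = 0) (E : ℝ) :
    ∀ (l : Tor N → (DD p ν).Λ) (k : (PP yf rs I).Lb) (z : Tor N),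
      ∀ᵐ u ∂ν k, |u - E| + (DD p ν).prof (i + 1) s l z ≤ lam + |E| + 4 := by
  intro l k z
  filter_upwards [supp_DD_one hrs h hi hs hs1 hν E l k z] with u hu
  linarith

/-- the same for 37's laws -/
theorem supp_DD_nuT (hrs : 2 ≤ rs) {lam τ : ℝ} {q : Fin ((PP yf rs I).I + 1) ⊕ (PP yf rs I).Wn → ℝ}
    {c w : (PP yf rs I).Wn → ℝ} (hA : P365T1.Lab37.Adm lam τ q c w)
    (h : (DD (pL τ q) (nuT lam τ q c w)).Ok ρ) (hi : i ≤ I) (hs : 0 ≤ s) (hs1 : s ≤ 1) (E : ℝ) :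
    ∀ (l : Tor N → (DD (pL τ q) (nuT lam τ q c w)).Λ) (k : (PP yf rs I).Lb) (z : Tor N),
      ∀ᵐ u ∂(nuT lam τ q c w k),
        |u - E| + (DD (pL τ q) (nuT lam τ q c w)).prof (i + 1) s l z ≤ lam + |E| + 4 :=
  supp_DD hrs h hi hs hs1 (fun k => hA.supp k) E

/-- **all good sites of all configurations have the same profile** -/
theorem prof_DD_good (hi : i ≤ I) (s : ℝ) {l l' : Tor N → (DD p ν).Λ} {z z' : Tor N}
    (hz : l z = (DD p ν).good) (hz' : l' z' = (DD p ν).good) :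
    (DD p ν).prof (i + 1) s l z = (DD p ν).prof (i + 1) s l' z' :=
  V3.prof_good (D := DD p ν) (fun j _ a => pat_ne_none j a) (Or.inl rfl)
    (show i + 1 ≤ I + 1 by omega) s hz hz'

end DD

end P365T1.HBasm
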