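import Vale.Agent.P365.T1c.HBDD376
import Vale.Agent.P365.T1c.SuppDD548
import Vale.Agent.P365.H509.Hole

/-!
# P365-T1: the LONG part of the bulk hub for the concrete chain
-/

set_option linter.all false

namespace P365T1.HBasm

open P365L P365O P365T1 P365L.TL Matrix Complex MeasureTheory Set
open P365T1.Conc P365T1.Lab37 P365T1.Seq P365T1.Peel Vale.Agent.P365.J376 P365SH
open scoped ComplexConjugate ENNReal

/-- **LONG for the concrete chain** -/
theorem long_part {lam : ℝ} (hlam : 0 < lam) (E : ℝ) :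
    ∃ R : ℕ, 2 ≤ R ∧ ∀ rs, R ≤ rs → ∀ (yf : ℕ → ℤ × ℤ) (Vsf : ℕ → ℤ × ℤ → ℝ) (I : ℕ),
      (∀ r, rs ≤ r → yf r ∈ Xr r) → AdmS lam yf Vsf rs I → ∀ (N : ℕ) [NeZero N],
        ∀ i ≤ I, ∀ s ∈ Ioo (tS rs I (i + 1)) 1, LongPart lam E yf Vsf rs I N i s := by
  classical
  set C3v : ℝ := Vale.Agent.P365.J376.C3 (lam + |E| + 4) (2 / lam) 1 with hC3v
  have hC3 : 0 ≤ C3v := by
    rw [hC3v, Vale.Agent.P365.J376.C3]
    have := Vale.Agent.P365.J376.CKq_nonneg (L := lam + |E| + 4) (D0 := 2 / lam) (by positivity)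
    positivity
  obtain ⟨R0, hR0⟩ := P365T1.HBnumL.etaL C3v 2168 hC3 (by norm_num)
  refine ⟨max R0 2, le_max_right _ _, fun rs hrs yf Vsf I hy h N _ i hi s hs => ?_⟩
  have hrs2 : 2 ≤ rs := (le_max_right _ _).trans hrs
  have hs0 : 0 < s := (tS_pos rs I (i + 1)).trans hs.1
  have hs1 : s ≤ 1 := hs.2.le
  have hok := DC_ok (lam := lam) (yf := yf) (Vsf := Vsf) (I := I) hrs2 hy h
  have hr : rs ≤ rr rs i := le_rr (by omega) i
  refine ⟨rr rs i, 2 * (8 * rr rs i), by omega, le_rfl, ?_⟩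
  have hmain := hok.long_sum (N := N) (fun j _ a => pat_ne_none j a) (i := i) hi hs0 hs1 (E := E)
    (L := lam + |E| + 4) (D0 := 2 / lam) (Pm := 1) (by positivity) (by positivity)
    (Dd := DS lam yf rs I) (fun k => (DS_pos h k).le) (nuD_densLe h) (sum_pS_DS h)
    (supp_DD hrs2 hok hi hs0.le hs1 (nuD_supp h) E)
    (fun l z => prof_DD_one hrs2 hok hi hs0.le hs1 l z) (n := rr rs i)
    (R := 2 * (8 * rr rs i)) (by omega)
  refine hmain.trans (mul_le_mul' (ENNReal.ofReal_le_ofReal ?_) le_rfl)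
  have h1 := hR0 (rr rs i) (((le_max_left _ _).trans hrs).trans hr) (2 * (8 * rr rs i)) (rr rs i)
    rfl le_rfl
  refine div_le_div_of_nonneg_right ?_ hs0.le
  rw [Vale.Agent.P365.J376.etaL]
  exact h1

end P365T1.HBasm
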