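import Vale.Agent.P365.T1c.HBDD376
import Vale.Agent.P365.T1c.SuppDD548
import Vale.Agent.P365.H509.Hole

/-!
# P365-T1: the LONG half of (HB) for the concrete chain
-/

set_option linter.all false

namespace P365T1.HBasm

open P365L P365O P365T1 P365L.TL Matrix Complex MeasureTheory Set
open P365T1.Conc P365T1.Lab37 P365T1.Seq P365T1.Peel Vale.Agent.P365.J376 P365SH
open scoped ComplexConjugate ENNReal

/-- **LONG for the concrete chain** -/
theorem long_part509 {lam : ℝ} (hlam : 0 < lam) (E : ℝ) :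
    ∃ R : ℕ, ∀ rs, R ≤ rs → ∀ (yf : ℕ → ℤ × ℤ) (Vsf : ℕ → ℤ × ℤ → ℝ) (I : ℕ),
      (∀ r, rs ≤ r → yf r ∈ Xr r) → AdmS lam yf Vsf rs I → ∀ (N : ℕ) [NeZero N],
      ∀ i ≤ I, ∀ s ∈ Ioo (tS rs I (i + 1)) 1, LongPart lam E yf Vsf rs I N i s := by
  set L : ℝ := lam + |E| + 4 with hLdef
  have hL0 : 0 ≤ L := by
    have := abs_nonneg E
    linarith
  have hD0 : (0 : ℝ) ≤ 2 / lam := by positivity
  have hC3 : 0 ≤ C3 L (2 / lam) 1 := by
    have := CKq_nonneg (L := L) hD0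
    unfold C3
    positivity
  obtain ⟨R0, hR0⟩ := P365T1.HBnumL.etaL (C3 L (2 / lam) 1) 2168 hC3 (by norm_num)
  refine ⟨max R0 2, fun rs hrs yf Vsf I hy hA N _ i hi s hs => ?_⟩
  have hrs2 : 2 ≤ rs := (le_max_right _ _).trans hrs
  have hr : rs ≤ rr rs i := le_rr (by omega) i
  have hrR : R0 ≤ rr rs i := ((le_max_left _ _).trans hrs).trans hr
  have hr2 : 2 ≤ rr rs i := hrs2.trans hr
  have hok := DC_ok (lam := lam) (yf := yf) (Vsf := Vsf) (I := I) hrs2 hy hA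
  have hs0 : 0 < s := (tS_pos rs I (i + 1)).trans hs.1
  have hs1 : s ≤ 1 := hs.2.le
  refine ⟨rr rs i, 2 * (8 * rr rs i), by omega, le_rfl, ?_⟩
  have hmain := hok.long_sum (N := N) (fun j _ a => pat_ne_none j a) (i := i) hi hs0 hs1
    (E := E) (L := L) (D0 := 2 / lam) (Pm := 1) hL0 hD0 (Dd := DS lam yf rs I)
    (fun k => (DS_pos hA k).le) (fun k => nuD_densLe hA k) (sum_pS_DS hA)
    (supp_DD hrs2 hok hi hs0.le hs1 (fun k => nuD_supp hA k) E)
    (fun l z => prof_DD_one hrs2 hok hi hs0.le hs1 l z)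
    (n := rr rs i) (R := 2 * (8 * rr rs i)) hr2
  refine hmain.trans (mul_le_mul' (ENNReal.ofReal_le_ofReal ?_) le_rfl)
  exact div_le_div_of_nonneg_right (hR0 (rr rs i) hrR (2 * (8 * rr rs i)) (rr rs i) rfl le_rfl)
    hs0.le

end P365T1.HBasm
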