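import Vale.Agent.P365.T1c.NormalA
import Vale.Agent.P365.T1.LabAdm37
import Vale.Agent.P365.T1.H3.DensS

/-!
# P365-T1: the law hypotheses of the NORMAL half for the concrete chain
-/

set_option linter.all false

namespace P365T1.HBasm

open P365L P365O P365T1 P365L.TL Matrix Complex MeasureTheory
open P365T1.Conc P365T1.Lab37 P365T1.Normal P365T1.OneVar P365T1.Bump
open scoped ComplexConjugate ENNReal

/-- parameters of the smooth law -/
noncomputable def gpS (lam : ℝ) : GP :=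
  ⟨lam, (lam * (1 / 16384) / 2) / 2, 1 / 24, 1 / 2, (2 * (lam - lam * (1 / 16384) / 2))⁻¹,
    (lam * (1 / 16384) / 2) / 8⟩

/-- parameters of the window laws -/
noncomputable def gpW (lam w : ℝ) : GP := ⟨lam, w / 2, 1 / 12, 1 / 2, 15 / (16 * w), w / 8⟩

/-- parameters of the label laws -/
noncomputable def gpL (lam : ℝ) (P : Par) : P.Lb → GP
  | none => gpS lam
  | some none => gpS lam
  | some (some (Sum.inl _)) => gpS lam
  | some (some (Sum.inr a)) => gpW lam (wC P a)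

/-- labels which occur in a good region with the pattern of family `i` -/
def regL (P : Par) (i : ℕ) (k : P.Lb) : Prop := k = none ∨ ∃ a, k = P.pat i a

/-- lower bound of the regularity constants -/
noncomputable def kapL (lam : ℝ) (r : ℕ) : ℝ :=
  min 1 ((lam * (1 / 16384) / 2) ^ 2) * Real.exp (-(r : ℝ)) ^ 2 / (6144 * (lam + 1) ^ 2)

theorem kapL_pos {lam : ℝ} (hl : 0 < lam) (r : ℕ) : 0 < kapL lam r := by
  unfold kapL
  have := Real.exp_pos (-(r : ℝ))
  positivity

theorem kapL_le_one {lam : ℝ} (hl : 0 < lam) (r : ℕ) : kapL lam r ≤ 1 := by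
  unfold kapL
  rw [div_le_one (by positivity)]
  have h1 : Real.exp (-(r : ℝ)) ≤ 1 := Real.exp_le_one_iff.2 (by simp)
  have h2 : Real.exp (-(r : ℝ)) ^ 2 ≤ 1 := pow_le_one₀ (Real.exp_pos _).le h1
  calc min 1 ((lam * (1 / 16384) / 2) ^ 2) * Real.exp (-(r : ℝ)) ^ 2 ≤ 1 * 1 :=
        mul_le_mul (min_le_left _ _) h2 (by positivity) zero_le_one
    _ ≤ 6144 * (lam + 1) ^ 2 := by nlinarith

theorem kapL_le_S {lam : ℝ} (hl : 0 < lam) (r : ℕ) :
    kapL lam r ≤ (gpS lam).m * (gpS lam).δ ^ 2 / (16 * (2 * (lam + 1)) ^ 2) := by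
  have h1 : Real.exp (-(r : ℝ)) ≤ 1 := Real.exp_le_one_iff.2 (by simp)
  have h2 : Real.exp (-(r : ℝ)) ^ 2 ≤ 1 := pow_le_one₀ (Real.exp_pos _).le h1
  have h3 : min 1 ((lam * (1 / 16384) / 2) ^ 2) ≤ (lam * (1 / 16384) / 2) ^ 2 := min_le_right _ _
  unfold kapL gpS
  simp only
  calc min 1 ((lam * (1 / 16384) / 2) ^ 2) * Real.exp (-(r : ℝ)) ^ 2 / (6144 * (lam + 1) ^ 2)
      ≤ (lam * (1 / 16384) / 2) ^ 2 * 1 / (6144 * (lam + 1) ^ 2) := by gcongr
    _ = 1 / 24 * (lam * (1 / 16384) / 2 / 2) ^ 2 / (16 * (2 * (lam + 1)) ^ 2) := by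
        field_simp
        ring

theorem kapL_le_W {lam : ℝ} (hl : 0 < lam) (r : ℕ) :
    kapL lam r ≤ (gpW lam (Real.exp (-(r : ℝ)))).m * (gpW lam (Real.exp (-(r : ℝ)))).δ ^ 2 /
      (16 * (2 * (lam + 1)) ^ 2) := by
  have h3 : min 1 ((lam * (1 / 16384) / 2) ^ 2) ≤ 1 := min_le_left _ _
  have h0 := Real.exp_pos (-(r : ℝ))
  unfold kapL gpW
  simp only
  calc min 1 ((lam * (1 / 16384) / 2) ^ 2) * Real.exp (-(r : ℝ)) ^ 2 / (6144 * (lam + 1) ^ 2)
      ≤ 1 * Real.exp (-(r : ℝ)) ^ 2 / (3072 * (lam + 1) ^ 2) := by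
        gcongr
        norm_num
    _ = 1 / 12 * (Real.exp (-(r : ℝ)) / 2) ^ 2 / (16 * (2 * (lam + 1)) ^ 2) := by
        field_simp
        ring

variable {lam : ℝ} {P : Par} {c : P.Wn → ℝ}

/-- **the law hypotheses** for the family `i` of the concrete chain -/
theorem nlaw (h : Adm lam (1 / 16384) (qC P) c (wC P)) {i : ℕ} (hi : i < P.I + 1) :
    NLaw (pL (1 / 16384) (qC P)) (nuT lam (1 / 16384) (qC P) c (wC P)) none (regL P i) lam
      ((2 * (lam - lam * (1 / 16384) / 2))⁻¹) (lam - 2 * (lam * (1 / 16384) / 2))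
      (kapL lam (P.r i)) (DL lam (1 / 16384) (qC P) (wC P))
      (dL lam (1 / 16384) (qC P) c (wC P)) (gpL lam P) := by
  have hl := h.hlam
  have hS : GLw (nuS lam (lam * (1 / 16384) / 2)) (rhoS lam (lam * (1 / 16384) / 2)) (gpS lam) :=
    glaw_nuS h.l_pos h.l_lt
  have hcase : ∀ k, regL P i k → k = none ∨ k = P.mark ⟨i, hi⟩ ∨
      ∃ z, k = P.win ⟨⟨i, hi⟩, z⟩ := by
    rintro k (rfl | ⟨a, rfl⟩)
    · exact Or.inl rfl
    · right
      unfold Par.pat
      rw [dif_pos hi]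
      split_ifs with h2
      · exact Or.inr ⟨_, rfl⟩
      · exact Or.inl rfl
  refine
    { p0 := fun k => (h.pL_pos k).le
      p1 := h.pL_sum
      pg := h.pL_pos _
      lam0 := hl.le
      supp := fun k => ?_
      dens := h.densLe
      κg_pos := ?_
      ag_pos := ?_
      ag_le := ?_
      good := ?_
      reg_g := Or.inl rfl
      glw := fun k hk => ?_
      gL := fun k hk => ?_
      κ_pos := kapL_pos hl _
      κ_le := kapL_le_one hl _
      κ_reg := fun k hk => ?_ }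
  · have h1 := h.supp k
    rw [ae_iff]
    refine measure_mono_null ?_ h1
    intro t ht hh
    exact ht (abs_le.2 hh)
  · have := h.l_lt
    have h2 : 0 < 2 * (lam - lam * (1 / 16384) / 2) := by linarith
    positivity
  · linarith
  · have := h.l_pos
    linarith
  · rw [h.nuT_good]
    exact densGe_nuS h.l_pos (by linarith)
  · rcases hcase k hk with rfl | rfl | ⟨z, rfl⟩
    · rw [h.nuT_good]
      exact hS
    · have e : nuT lam (1 / 16384) (qC P) c (wC P) (P.mark ⟨i, hi⟩) =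
          nuS lam (lam * (1 / 16384) / 2) := h.nuT_mark _
      rw [e]
      exact hS
    · exact glaw_nuB (h.hw _) (h.hc _)
  · rcases hcase k hk with rfl | rfl | ⟨z, rfl⟩
    · exact le_rfl
    · exact le_rfl
    · exact le_rfl
  · rcases hcase k hk with rfl | rfl | ⟨z, rfl⟩
    · exact kapL_le_S hl _
    · exact kapL_le_S hl _
    · exact kapL_le_W hl _

end P365T1.HBasm
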