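import Vale.Agent.P365.T1c.NormalB
import Vale.Agent.P365.T1.NormV125
import Vale.Agent.P365.T1.PeelV963

/-!
# P365-T1: the NORMAL inequality for one fixed good configuration, design v3 (helper256)

`V3.Ok.normA : D.NormA N E i s (4 * Cadd ..) (Ceps ..) (Ctar ..)`.
-/

set_option autoImplicit false
set_option linter.all false

open MeasureTheory Finset Function Matrix Complex P365L P365O P365L.TL
open scoped ENNReal

namespace Vale.Agent.P365.J376

open P365T1 P365T1.MAff P365T1.OneVar P365T1.Switch P365T1.Peel P365T1.Normal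

variable {D : V3} {N : ℕ} [NeZero N]

/-- **(A)** of the interface -/
theorem V3.Ok.normA {ρ0 : Measure ℝ} (ok : D.Ok ρ0) {reg : D.Λ → Prop}
    {lam κg ag κ : ℝ} {Dd : D.Λ → ℝ} {ρ : D.Λ → ℝ → ℝ} {gp : D.Λ → GP}
    (hlaw : NLaw D.p D.ν D.good reg lam κg ag κ Dd ρ gp) {E : ℝ} {i : ℕ} (hi : i ≤ D.I)
    {s : ℝ} (hs : 0 < s) (hN2 : 2 ≤ N) (hm : 3 ≤ D.m i) (hmN : D.m i ∣ N)
    (hy : D.y i ∈ blk (D.m i)) (hgood : ∀ j ≤ D.I, ∀ a, D.pat j a ≠ D.good)
    (he1 : ∀ (l : Tor N → D.Λ) z, D.prof (i + 1) s l z ≤ 1)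
    (hreg : ∀ a, reg (D.pat i a)) {Dm : ℝ} (hDg : DensLe Dm (D.ν D.good))
    (hDy : DensLe Dm (D.ν (D.pat i (D.y i)))) {ε : ℝ} (hε : 0 < ε) (hε1 : ε ≤ 1 / 2) :
    D.NormA N E i s
      (4 * Cadd D.p Dd D.good gp lam κg ag κ E ε (2 * D.m i) Dm (9 * D.m i ^ 2))
      (Ceps D.p Dd D.good gp lam κg ag E ε (9 * D.m i ^ 2))
      (Ctar D.p Dd D.good lam κg ag κ E ε (9 * D.m i ^ 2)) := by
  classical
  haveI := ok.prob
  intro x l' hNrm hl' S hS
  have hlam0 := hlaw.lam0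
  have hm0 : 0 < D.m i := by omega
  set K := D.Kn i l' x with hK
  set Q := D.Qn i l' x with hQ
  set y := D.yc i x with hyd
  set l2 := D.insx i x l' with hl2
  set n := 9 * D.m i ^ 2 with hn
  have hKQ : K ⊆ Q := D.Kn_sub_Qn i l' x
  have hCK : Cor (D.m i) x ⊆ K := V3.Cor_sub_Kn hm hmN hy hNrm
  have hbiy : bi (D.m i) y = bi (D.m i) x := V3.bi_yc hmN hy x
  have hxK : x ∈ K := hCK (self_mem_Cor _ x)
  have hyK : y ∈ K := hCK (mem_Cor.2 hbiy)
  have hcard : Q.card ≤ n := (Finset.card_le_card (D.Qn_sub_Win i l' x)).trans (card_Win_le hm0 x)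
  have hcof : ∀ z (hz : z ∈ K), z ≠ y →
      CofLe (AT N) Q E (fun _ => 0) (lam + 1) (c2c E (lam + 1) n) ⟨z, hKQ hz⟩ ⟨y, hKQ hyK⟩ := by
    intro z hz _
    have h1 : CofLe (AT N) Q E (fun _ => 0) (lam + 1)
        (c2c E (lam + 1) (Ic (rT N) (Win (D.m i) x) (nsg D.good l') y).card)
        ⟨z, hKQ hz⟩ ⟨y, hKQ hyK⟩ :=
      cofLe_Ic (AT_symm N) AT_eq_zero_or_one (AT_diag hN2) row_sum_le (by linarith)
        (fun _ _ => le_rfl) (fun _ _ => zero_le_one) _ _ (Kc_sub_Ic _ hz) rfl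
    refine h1.mono (c2c_anti (by linarith) ?_)
    exact (Finset.card_le_card (Ic_sub_Qc _)).trans hcard
  have he : ∀ (l : Tor N → D.Λ) z, 0 < D.prof (i + 1) s l z :=
    fun l z => ok.prof_pos (by omega) hs.le l z
  have hSK : ∀ l ∈ S, ∀ z ∉ K, l z = l' z := by
    intro l hl z hz
    by_cases hzQ : z ∈ Q
    · rw [hl' z hzQ]
      by_contra hne
      exact hz ((hS l hl).2 z hzQ hne)
    · exact (hS l hl).1 z hzQ
  have hloc : ∀ l ∈ S, ∀ z ∉ K, D.prof (i + 1) s l z = D.prof (i + 1) s l' z := by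
    intro l hl z hz
    by_cases hzQ : z ∈ Q
    · refine V3.prof_good hgood ok.mov_good (by omega) s ?_ (hl' z hzQ)
      rw [hSK l hl z hz, hl' z hzQ]
    · exact V3.prof_off hgood (hS l hl).1 (hS l hl).2 (by omega) s hzQ
  have hbQ : ∀ z, bi (D.m i) z = bi (D.m i) x → z ∈ Q := fun z hz => hKQ (hCK (mem_Cor.2 hz))
  have hreg2 : ∀ z ∈ Q, reg (l2 z) := by
    intro z hz
    by_cases hb : bi (D.m i) z = bi (D.m i) x
    · have h1 : l2 z = D.pat i (lc (D.m i) z) := V3.ins_in hb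
      rw [h1]
      exact hreg _
    · have h1 : l2 z = l' z := V3.ins_out hb
      rw [h1, hl' z hz]
      exact hlaw.reg_g
  have hout : ∀ z ∉ Q, l2 z = l' z := fun z hz => V3.ins_out fun h => hz (hbQ z h)
  have heout : ∀ z ∉ Q, D.prof (i + 1) s l2 z = D.prof (i + 1) s l' z := fun z hz =>
    V3.prof_insx hgood hm hmN hy hNrm hl' (by omega) s hz
  have hl2y : l2 y = D.pat i (D.y i) := by
    have h1 : l2 y = D.pat i (lc (D.m i) y) := V3.ins_in hbiy
    rw [h1]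
    congr 1
    exact lc_st' (bIn_bi hmN x) hy
  have hf : ∀ k : Fin 4, ∀ z ∈ Q, |phi N k z - phi N k x| ≤ 2 * D.m i := by
    intro k z hz
    have h1 := phi_osc k (nrm_Win hm0 (D.Qn_sub_Win i l' x hz))
    push_cast at h1
    exact h1
  have key : ∀ k : Fin 4, ∑ l ∈ S, Pr D.p l * FY (AT N) D.ν E (D.prof (i + 1) s) (phi N k) l x ≤
      Pr D.p l' * (Cadd D.p Dd D.good gp lam κg ag κ E ε (2 * D.m i) Dm n +
        Ceps D.p Dd D.good gp lam κg ag E ε n *
          ∑ w ∈ Q, FM (AT N) D.ν E (D.prof (i + 1) s) (phi N k) l' w +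
        Ctar D.p Dd D.good lam κg ag κ E ε n *
          FM (AT N) D.ν E (D.prof (i + 1) s) (phi N k) l2 y) := fun k =>
    fixed_one (AT_symm N) hlaw he he1 hKQ hcard (hKQ hyK) hcof hl' hSK hloc hxK hreg2 hout heout
      hε hε1 (hf k) hDg (by rw [hl2y]; exact hDy)
  have hYE : ∀ l : Tor N → D.Λ, D.YE N E i s l x =
      ∑ k : Fin 4, FY (AT N) D.ν E (D.prof (i + 1) s) (phi N k) l x := fun l => rfl
  have hME : ∀ (l : Tor N → D.Λ) w, D.ME N E i s l w =
      ∑ k : Fin 4, FM (AT N) D.ν E (D.prof (i + 1) s) (phi N k) l w := fun l w => rfl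
  have hPL : ∀ l : Tor N → D.Λ, D.PL l = Pr D.p l := fun l => rfl
  calc ∑ l ∈ S, D.PL l * D.YE N E i s l x
      = ∑ k : Fin 4, ∑ l ∈ S, Pr D.p l * FY (AT N) D.ν E (D.prof (i + 1) s) (phi N k) l x := by
        rw [Finset.sum_comm]
        refine Finset.sum_congr rfl fun l _ => ?_
        rw [hYE, hPL, Finset.mul_sum]
    _ ≤ ∑ k : Fin 4, Pr D.p l' * (Cadd D.p Dd D.good gp lam κg ag κ E ε (2 * D.m i) Dm n +
        Ceps D.p Dd D.good gp lam κg ag E ε n *
          ∑ w ∈ Q, FM (AT N) D.ν E (D.prof (i + 1) s) (phi N k) l' w +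
        Ctar D.p Dd D.good lam κg ag κ E ε n *
          FM (AT N) D.ν E (D.prof (i + 1) s) (phi N k) l2 y) :=
        Finset.sum_le_sum fun k _ => key k
    _ = _ := by
        rw [← Finset.mul_sum, Finset.sum_add_distrib, Finset.sum_add_distrib, ← Finset.mul_sum,
          ← Finset.mul_sum, Finset.sum_const, Finset.card_univ, Fintype.card_fin, nsmul_eq_mul,
          Finset.sum_comm, hPL]
        simp only [hME]
        norm_num

end Vale.Agent.P365.J376
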