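import Vale.Agent.P365.T1c.HBfin376
import Vale.Agent.P365.T1c.NormNum376
import Vale.Agent.P365.T1c.CswDD937
import Vale.Agent.P365.T1c.NormalV

/-!
# P365-T1: the NORMAL part of the bulk hub for the concrete chain
-/

set_option linter.all false

namespace P365T1.HBasm

open P365L P365O P365T1 P365L.TL Matrix Complex MeasureTheory Set
open P365T1.Conc P365T1.Lab37 P365T1.Seq P365T1.Peel Vale.Agent.P365.J376 P365SH P365T1.Normal
open P365T1.H937
open scoped ComplexConjugate ENNReal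

variable {lam E : ℝ} {yf : ℕ → ℤ × ℤ} {Vsf : ℕ → ℤ × ℤ → ℝ} {rs I : ℕ}

/-- `NormA` is monotone in the constants -/
theorem NormA_mono {D : V3} {N : ℕ} [NeZero N] {i : ℕ} {s : ℝ} {A1 ε1 K2 A1' ε1' K2' : ℝ≥0∞}
    (h : D.NormA N E i s A1 ε1 K2) (hA : A1 ≤ A1') (hε : ε1 ≤ ε1') (hK : K2 ≤ K2') :
    D.NormA N E i s A1' ε1' K2' := by
  intro x l' h1 h2 S hS
  exact (h x l' h1 h2 S hS).trans (mul_le_mul' le_rfl (add_le_add (add_le_add hA
    (mul_le_mul' hε le_rfl)) (mul_le_mul' hK le_rfl)))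

/-- density bound of the smooth law -/
noncomputable def DmS (lam : ℝ) : ℝ := (2 * (lam - lam * (1 / 16384) / 2))⁻¹

theorem DmS_nonneg (hlam : 0 < lam) : 0 ≤ DmS lam := by
  unfold DmS
  have : 0 ≤ 2 * (lam - lam * (1 / 16384) / 2) := by linarith
  exact inv_nonneg.2 this

theorem ofReal_mul4 {x y : ℝ} {a b : ℝ≥0∞} (hx : 0 ≤ x) (ha : a ≤ ENNReal.ofReal x)
    (hb : b ≤ ENNReal.ofReal y) : a * b ≤ ENNReal.ofReal (x * y) := by
  rw [ENNReal.ofReal_mul hx]
  exact mul_le_mul' ha hb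

theorem four_eq : (4 : ℝ≥0∞) = ENNReal.ofReal 4 := by simp

theorem nat_ofReal (n : ℕ) : (n : ℝ≥0∞) = ENNReal.ofReal (n : ℝ) := (ENNReal.ofReal_natCast n).symm

theorem two_mul_nat_ofReal (n : ℕ) : (2 * (n : ℝ≥0∞)) = ENNReal.ofReal (2 * (n : ℝ)) := by
  rw [ENNReal.ofReal_mul (by norm_num), ENNReal.ofReal_natCast, ENNReal.ofReal_ofNat]

/-- **NORMAL for the concrete chain, constants included** -/
theorem normA_DD (hE : 0 < lam) (hrs : 2 ≤ rs) (hy : ∀ r, rs ≤ r → yf r ∈ Xr r)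
    (h : AdmS lam yf Vsf rs I) {N : ℕ} [NeZero N] (hN : ∀ i ≤ I, mS rs i ∣ N) {i : ℕ}
    (hi : i ≤ I) {s : ℝ} (hs : s ∈ Ioo (tS rs I (i + 1)) 1) {n : ℕ}
    (hn : n = 9 * (8 * rr rs i) ^ 2) :
    (DC lam yf Vsf rs I).NormA N E i s
      (ENNReal.ofReal (Num.A1R (CK lam E) (DmS lam) (rr rs i) n))
      (ENNReal.ofReal (Num.e1R (CK lam E) n))
      (ENNReal.ofReal (Num.K2R (CK lam E) (rr rs i) n)) := by
  have hlam := hE
  have hok := DC_ok (lam := lam) (yf := yf) (Vsf := Vsf) (I := I) hrs hy h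
  have hs0 : 0 < s := (tS_pos rs I (i + 1)).trans hs.1
  have hs1 : s ≤ 1 := hs.2.le
  have hPok : (PP yf rs I).Ok := PP_ok hrs hy I
  have hr1 : 1 ≤ rr rs i := one_le_rr (by omega) i
  have hA : Adm lam (1 / 16384) (qC (PP yf rs I)) (cS yf Vsf rs I) (wC (PP yf rs I)) := h
  have hi' : i < (PP yf rs I).I + 1 := Nat.lt_succ_of_le hi
  have hm : 3 ≤ (DC lam yf Vsf rs I).m i := by
    show 3 ≤ 8 * rr rs i
    omega
  have hdvd : (DC lam yf Vsf rs I).m i ∣ N := hN i hi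
  have hN2 : 2 ≤ N := by
    have h1 := Nat.le_of_dvd (Nat.pos_of_ne_zero (NeZero.ne N)) hdvd
    omega
  have hybl : (DC lam yf Vsf rs I).y i ∈ blk ((DC lam yf Vsf rs I).m i) := by
    obtain ⟨h1, h2⟩ := y_lt hPok i
    exact Finset.mem_product.2 ⟨Finset.mem_range.2 h1, Finset.mem_range.2 h2⟩
  set c : ℝ := CK lam E with hc
  have hc2 : 2 ≤ c := two_le_CK hlam E
  set x : ℝ := Num.xx c n with hx
  have hx0 : 2 ≤ x := by
    rw [hx, Num.xx]
    have h1 : (0 : ℝ) ≤ n := Nat.cast_nonneg n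
    nlinarith
  have hε : 0 < Real.exp (-x) := Real.exp_pos _
  have hε1 : Real.exp (-x) ≤ 1 / 2 := by
    have h1 : Real.exp (-x) ≤ Real.exp (-1) := Real.exp_le_exp.2 (by linarith)
    have h2 : Real.exp (-1) ≤ 1 / 2 := by
      rw [Real.exp_neg, inv_eq_one_div]
      have : (2 : ℝ) ≤ Real.exp 1 := by
        have := Real.add_one_le_exp (1 : ℝ)
        linarith
      exact one_div_le_one_div_of_le (by norm_num) this
    exact h1.trans h2
  have hpatm : (PP yf rs I).pat i ((PP yf rs I).y i) = (PP yf rs I).mark ⟨i, hi'⟩ := pat_y hPok hi'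
  have hmain := V3.Ok.normA (D := DC lam yf Vsf rs I) (N := N) hok (nlaw hA hi') (E := E) (i := i)
    hi hs0 hN2 hm hdvd hybl (fun j _ a => pat_ne_none j a)
    (fun l z => prof_DD_one hrs hok hi hs0.le hs1 l z) (fun a => Or.inr ⟨a, rfl⟩)
    (Dm := DmS lam) (hA.densLe none)
    (by
      show DensLe (DmS lam) (nuT lam (1 / 16384) (qC (PP yf rs I)) (cS yf Vsf rs I)
        (wC (PP yf rs I)) ((PP yf rs I).pat i ((PP yf rs I).y i)))
      rw [hpatm]
      exact hA.densLe ((PP yf rs I).mark ⟨i, hi'⟩)) hε hε1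
  have hmi : (DC lam yf Vsf rs I).m i = 8 * rr rs i := rfl
  rw [hmi, ← hn] at hmain
  -- the constants
  have k1 := csw_le_exp hA E n
  have k2 : ENNReal.ofReal (Cev E (gpS lam) (gpS lam) * (8 * (lam + 1) * Real.exp (-x))) ≤
      ENNReal.ofReal (Real.exp c * Real.exp (-x)) :=
    ENNReal.ofReal_le_ofReal (cev_le_exp hlam E hε.le)
  have k3 : ENNReal.ofReal (KBm E (lam + 1) (kapL lam (rr rs i)) (Real.exp (-x)) n) ≤
      ENNReal.ofReal (Real.exp (c * (n + 1) * (1 + (rr rs i : ℕ) + x))) :=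
    ENNReal.ofReal_le_ofReal (KBm_le_exp hlam E (rr rs i) n (by linarith))
  have k4 : 4 * Csw (pL (1 / 16384) (qC (PP yf rs I)))
      (DL lam (1 / 16384) (qC (PP yf rs I)) (wC (PP yf rs I))) none (lam + |E| + 1)
      ((2 * (lam - lam * (1 / 16384) / 2))⁻¹) (lam - 2 * (lam * (1 / 16384) / 2)) n ≤
      ENNReal.ofReal (4 * Real.exp (c * (n + 1))) := by
    rw [four_eq]
    exact ofReal_mul4 (by norm_num) le_rfl k1
  have e1 : Ceps (pL (1 / 16384) (qC (PP yf rs I)))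
      (DL lam (1 / 16384) (qC (PP yf rs I)) (wC (PP yf rs I))) none (gpL lam (PP yf rs I)) lam
      ((2 * (lam - lam * (1 / 16384) / 2))⁻¹) (lam - 2 * (lam * (1 / 16384) / 2)) E
      (Real.exp (-x)) n ≤ ENNReal.ofReal (Num.e1R c n) := by
    unfold Ceps Num.e1R
    refine ofReal_mul4 (by positivity) k4 (ofReal_mul4 (by positivity) k2 ?_)
    rw [two_mul_nat_ofReal]
  have e2 : Ctar (pL (1 / 16384) (qC (PP yf rs I)))
      (DL lam (1 / 16384) (qC (PP yf rs I)) (wC (PP yf rs I))) none lam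
      ((2 * (lam - lam * (1 / 16384) / 2))⁻¹) (lam - 2 * (lam * (1 / 16384) / 2))
      (kapL lam (rr rs i)) E (Real.exp (-x)) n ≤ ENNReal.ofReal (Num.K2R c (rr rs i) n) := by
    unfold Ctar Num.K2R
    refine ofReal_mul4 (by positivity) k4 (ofReal_mul4 (by positivity) k3 ?_)
    rw [nat_ofReal]
  have e3 : 4 * Cadd (pL (1 / 16384) (qC (PP yf rs I)))
      (DL lam (1 / 16384) (qC (PP yf rs I)) (wC (PP yf rs I))) none (gpL lam (PP yf rs I)) lam
      ((2 * (lam - lam * (1 / 16384) / 2))⁻¹) (lam - 2 * (lam * (1 / 16384) / 2))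
      (kapL lam (rr rs i)) E (Real.exp (-x)) (2 * ((8 * rr rs i : ℕ) : ℝ)) (DmS lam) n ≤
      ENNReal.ofReal (Num.A1R c (DmS lam) (rr rs i) n) := by
    have hD := DmS_nonneg hlam
    have hpi := Real.pi_pos
    have f1 := Num.e1R_nonneg c n
    have f2 := Num.K2R_nonneg c (rr rs i) n
    have hm8 : (2 * ((8 * rr rs i : ℕ) : ℝ)) = 2 * (8 * (rr rs i : ℝ)) := by push_cast; ring
    unfold Cadd Num.A1R
    rw [hm8, four_eq]
    refine ofReal_mul4 (by norm_num) le_rfl ?_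
    rw [ENNReal.ofReal_add (by positivity) (by positivity)]
    refine add_le_add (ofReal_mul4 (by positivity) le_rfl ?_) (ofReal_mul4 (by positivity) ?_ le_rfl)
    · rw [← ENNReal.ofReal_pow (by
        have := hA.pL_pos none
        positivity)]
      refine ENNReal.ofReal_le_ofReal (pow_le_pow_left₀ (by
        have := hA.pL_pos none
        positivity) ?_ n)
      have := hA.good_ge
      rw [div_le_iff₀ (by linarith)]
      linarith
    · rw [ENNReal.ofReal_add (by positivity) f2]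
      refine add_le_add (ofReal_mul4 f1 e1 ?_) e2
      rw [nat_ofReal]
  exact NormA_mono hmain e3 e1 e2

/-- **NORMAL, numbers included, for all large first radii** -/
theorem norm_all {lam E : ℝ} (hlam : 0 < lam) (hE : |E| < 4 + lam) : NormAll lam E := by
  have hc : 0 ≤ CK lam E := by
    have := two_le_CK hlam E
    linarith
  obtain ⟨R, hR2, hR⟩ := exists_rs (Num.normal_num hc (DmS_nonneg hlam))
  refine ⟨R, hR2, fun rs hrs yf Vsf I hy h N _ hN i hi s hs => ?_⟩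
  obtain ⟨h1, h2⟩ := hR rs hrs i (9 * (8 * rr rs i) ^ 2) rfl
  refine ⟨Num.A1R (CK lam E) (DmS lam) (rr rs i) (9 * (8 * rr rs i) ^ 2),
    Num.e1R (CK lam E) (9 * (8 * rr rs i) ^ 2),
    Num.K2R (CK lam E) (rr rs i) (9 * (8 * rr rs i) ^ 2), ?_, Num.e1R_nonneg _ _,
    Num.K2R_nonneg _ _ _, normA_DD hlam (hR2.trans hrs) hy h hN hi hs rfl, h1, h2⟩
  have hD := DmS_nonneg hlam
  have hpi := Real.pi_pos
  have f1 := Num.e1R_nonneg (CK lam E) (9 * (8 * rr rs i) ^ 2)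
  have f2 := Num.K2R_nonneg (CK lam E) (rr rs i) (9 * (8 * rr rs i) ^ 2)
  unfold Num.A1R
  positivity

/-- **the flow for the uniform law** -/
theorem flow_in {lam : ℝ} (hlam : 0 < lam) : FlowIn (nuL lam) lam :=
  flow_of_norm hlam fun _ hE => norm_all hlam hE

end P365T1.HBasm
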