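import Vale.Agent.P365.T1c.NormalV
import Vale.Agent.P365.T1c.NLawDD376
import Vale.Agent.P365.T1c.SuppDD548
import Vale.Agent.P365.T1c.HBDD376

/-!
# P365-T1: the NORMAL inequality for the concrete chain (helper256)
-/

set_option autoImplicit false
set_option linter.all false

namespace P365T1.HBasm

open P365L P365O P365T1 P365L.TL Matrix Complex MeasureTheory Set
open P365T1.Conc P365T1.Lab37 P365T1.Seq P365T1.Peel P365T1.Normal P365T1.OneVar
open Vale.Agent.P365.J376 P365SH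
open scoped ComplexConjugate ENNReal

variable {lam E : ℝ} {yf : ℕ → ℤ × ℤ} {Vsf : ℕ → ℤ × ℤ → ℝ} {rs I : ℕ}

theorem NormA_mono {D : V3} {N : ℕ} [NeZero N] {E : ℝ} {i : ℕ} {s : ℝ} {A1 A1' ε1 ε1' K2 K2' : ℝ≥0∞}
    (h : D.NormA N E i s A1 ε1 K2) (hA : A1 ≤ A1') (hε : ε1 ≤ ε1') (hK : K2 ≤ K2') :
    D.NormA N E i s A1' ε1' K2' := by
  intro x l' h1 h2 S hS
  refine (h x l' h1 h2 S hS).trans ?_
  gcongr

/-- parameters of `DensGe` of the good law -/
noncomputable def kgS (lam : ℝ) : ℝ := (2 * (lam - lam * (1 / 16384) / 2))⁻¹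

/-- half width of `DensGe` of the good law -/
noncomputable def agS (lam : ℝ) : ℝ := lam - 2 * (lam * (1 / 16384) / 2)

/-- **the NORMAL inequality for the concrete chain** -/
theorem normA_DC (E : ℝ) (hrs : 2 ≤ rs) (hy : ∀ r, rs ≤ r → yf r ∈ Xr r)
    (h : AdmS lam yf Vsf rs I) {N : ℕ} [NeZero N] (hN : ∀ i ≤ I, mS rs i ∣ N) {i : ℕ}
    (hi : i ≤ I) {s : ℝ} (hs : s ∈ Ioo (tS rs I (i + 1)) 1) {ε : ℝ} (hε : 0 < ε)
    (hε1 : ε ≤ 1 / 2) :
    (DC lam yf Vsf rs I).NormA N E i s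
      (4 * Cadd (pS yf rs I) (DS lam yf rs I) none (gpL lam (PP yf rs I)) lam (kgS lam) (agS lam)
        (kapL lam (rr rs i)) E ε (2 * (8 * (rr rs i : ℝ))) (kgS lam) (9 * (8 * rr rs i) ^ 2))
      (Ceps (pS yf rs I) (DS lam yf rs I) none (gpL lam (PP yf rs I)) lam (kgS lam) (agS lam)
        E ε (9 * (8 * rr rs i) ^ 2))
      (Ctar (pS yf rs I) (DS lam yf rs I) none lam (kgS lam) (agS lam) (kapL lam (rr rs i)) E ε
        (9 * (8 * rr rs i) ^ 2)) := by
  have hok := DC_ok (lam := lam) (yf := yf) (Vsf := Vsf) (I := I) hrs hy h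
  have hs0 : 0 < s := (tS_pos rs I (i + 1)).trans hs.1
  have hs1 : s ≤ 1 := hs.2.le
  have hPok : (PP yf rs I).Ok := PP_ok hrs hy I
  have hr1 : 1 ≤ rr rs i := one_le_rr (by omega) i
  have hm : 3 ≤ (DC lam yf Vsf rs I).m i := by
    show 3 ≤ 8 * rr rs i
    omega
  have hmN : (DC lam yf Vsf rs I).m i ∣ N := hN i hi
  have hN2 : 2 ≤ N := by
    have h1 := Nat.le_of_dvd (Nat.pos_of_ne_zero (NeZero.ne N)) hmN
    omega
  have hybl : (DC lam yf Vsf rs I).y i ∈ blk ((DC lam yf Vsf rs I).m i) := by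
    obtain ⟨h1, h2⟩ := y_lt hPok i
    exact Finset.mem_product.2 ⟨Finset.mem_range.2 h1, Finset.mem_range.2 h2⟩
  have hi' : i < (PP yf rs I).I + 1 := Nat.lt_succ_of_le hi
  have hlaw := nlaw (P := PP yf rs I) h hi'
  have hDg : DensLe (kgS lam) ((DC lam yf Vsf rs I).ν (DC lam yf Vsf rs I).good) :=
    h.densLe none
  have hDy : DensLe (kgS lam) ((DC lam yf Vsf rs I).ν
      ((DC lam yf Vsf rs I).pat i ((DC lam yf Vsf rs I).y i))) := by
    have h1 : (DC lam yf Vsf rs I).mov ((DC lam yf Vsf rs I).pat i ((DC lam yf Vsf rs I).y i)) :=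
      hok.mov_cen i hi
    have h2 := nuD_mov' h h1
    have h3 := nuD_good h
    have h4 : (DC lam yf Vsf rs I).ν ((DC lam yf Vsf rs I).pat i ((DC lam yf Vsf rs I).y i)) =
        (DC lam yf Vsf rs I).ν (DC lam yf Vsf rs I).good := h2.trans h3.symm
    rw [h4]
    exact hDg
  have key := hok.normA (N := N) (E := E) (i := i) (reg := regL (PP yf rs I) i) hlaw hi hs0 hN2 hm
    hmN hybl (fun j _ a => pat_ne_none j a)
    (fun l z => prof_DD_one hrs hok hi hs0.le hs1 l z)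
    (fun a => Or.inr ⟨a, rfl⟩) hDg hDy hε hε1
  have e2 : (2 * (((DC lam yf Vsf rs I).m i : ℕ) : ℝ)) = 2 * (8 * (rr rs i : ℝ)) := by
    show 2 * ((8 * rr rs i : ℕ) : ℝ) = _
    push_cast
    ring
  rw [e2] at key
  exact key

end P365T1.HBasm
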