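import Vale.Agent.P365.T1c.HBfin376
import Vale.Agent.P365.T1c.NormalV
import Vale.Agent.P365.T1c.CswDD937
import Vale.Agent.P365.T1c.SuppDD548
import Vale.Agent.P365.T1c.HBnumK3

/-!
# P365-T1: the NORMAL part of the bulk hub for the concrete chain
-/

set_option linter.all false

namespace P365T1.HB3

open P365L P365O P365T1 P365L.TL Matrix Complex MeasureTheory Set
open P365T1.Conc P365T1.Lab37 P365T1.Seq P365T1.Peel Vale.Agent.P365.J376 P365SH
open P365T1.Normal P365T1.OneVar P365T1.Bump P365T1.HBasm P365T1.Switch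
open scoped ComplexConjugate ENNReal

theorem NormA_mono {D : V3} {N : ℕ} [NeZero N] {E : ℝ} {i : ℕ} {s : ℝ}
    {A1 ε1 K2 A1' ε1' K2' : ℝ≥0∞} (h : D.NormA N E i s A1 ε1 K2) (hA : A1 ≤ A1')
    (he : ε1 ≤ ε1') (hK : K2 ≤ K2') : D.NormA N E i s A1' ε1' K2' := by
  intro x l' h1 h2 S hS
  refine (h x l' h1 h2 S hS).trans ?_
  gcongr

variable {lam : ℝ} {P : Par} {c : P.Wn → ℝ}

theorem ceps_le (h : Adm lam (1 / 16384) (qC P) c (wC P)) (E : ℝ) (n : ℕ) {x : ℝ} :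
    Ceps (pL (1 / 16384) (qC P)) (DL lam (1 / 16384) (qC P) (wC P)) none (gpL lam P) lam
      ((2 * (lam - lam * (1 / 16384) / 2))⁻¹) (lam - 2 * (lam * (1 / 16384) / 2)) E
      (Real.exp (-x)) n ≤
    ENNReal.ofReal (4 * Real.exp (H937.CK lam E * (n + 1)) *
      (Real.exp (H937.CK lam E) * Real.exp (-x) * (2 * n))) := by
  unfold Ceps
  have h1 := H937.csw_le_exp h E n
  have h2 : ENNReal.ofReal (Cev E (gpL lam P none) (gpL lam P none) *
      (8 * (lam + 1) * Real.exp (-x))) ≤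
      ENNReal.ofReal (Real.exp (H937.CK lam E) * Real.exp (-x)) :=
    ENNReal.ofReal_le_ofReal (H937.cev_le_exp h.hlam E (Real.exp_pos _).le)
  have e1 : ((2 : ℝ≥0∞) * (n : ℝ≥0∞)) = ENNReal.ofReal (2 * (n : ℝ)) := by
    rw [ENNReal.ofReal_mul (by norm_num), ENNReal.ofReal_natCast, ENNReal.ofReal_ofNat]
  have e2 : (4 : ℝ≥0∞) = ENNReal.ofReal 4 := by rw [ENNReal.ofReal_ofNat]
  have e3 : ENNReal.ofReal (4 * Real.exp (H937.CK lam E * (n + 1)) *
      (Real.exp (H937.CK lam E) * Real.exp (-x) * (2 * n))) =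
      ENNReal.ofReal 4 * ENNReal.ofReal (Real.exp (H937.CK lam E * (n + 1))) *
      (ENNReal.ofReal (Real.exp (H937.CK lam E) * Real.exp (-x)) * ENNReal.ofReal (2 * n)) := by
    rw [ENNReal.ofReal_mul (p := 4 * Real.exp (H937.CK lam E * (n + 1))) (by positivity),
      ENNReal.ofReal_mul (p := 4) (by norm_num),
      ENNReal.ofReal_mul (p := Real.exp (H937.CK lam E) * Real.exp (-x)) (by positivity)]
  rw [e1, e2, e3]
  exact mul_le_mul' (mul_le_mul' le_rfl h1) (mul_le_mul' h2 le_rfl)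

theorem ctar_le (h : Adm lam (1 / 16384) (qC P) c (wC P)) (E : ℝ) (r n : ℕ) {x : ℝ}
    (hx : 0 ≤ x) :
    Ctar (pL (1 / 16384) (qC P)) (DL lam (1 / 16384) (qC P) (wC P)) none lam
      ((2 * (lam - lam * (1 / 16384) / 2))⁻¹) (lam - 2 * (lam * (1 / 16384) / 2)) (kapL lam r) E
      (Real.exp (-x)) n ≤
    ENNReal.ofReal (4 * Real.exp (H937.CK lam E * (n + 1)) *
      (Real.exp (H937.CK lam E * (n + 1) * (1 + r + x)) * n)) := by
  unfold Ctar
  have h1 := H937.csw_le_exp h E n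
  have h2 : ENNReal.ofReal (KBm E (lam + 1) (kapL lam r) (Real.exp (-x)) n) ≤
      ENNReal.ofReal (Real.exp (H937.CK lam E * (n + 1) * (1 + r + x))) :=
    ENNReal.ofReal_le_ofReal (H937.KBm_le_exp h.hlam E r n hx)
  have e2 : (4 : ℝ≥0∞) = ENNReal.ofReal 4 := by rw [ENNReal.ofReal_ofNat]
  have e3 : ENNReal.ofReal (4 * Real.exp (H937.CK lam E * (n + 1)) *
      (Real.exp (H937.CK lam E * (n + 1) * (1 + r + x)) * n)) =
      ENNReal.ofReal 4 * ENNReal.ofReal (Real.exp (H937.CK lam E * (n + 1))) *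
      (ENNReal.ofReal (Real.exp (H937.CK lam E * (n + 1) * (1 + r + x))) *
        ENNReal.ofReal (n : ℝ)) := by
    rw [ENNReal.ofReal_mul (p := 4 * Real.exp (H937.CK lam E * (n + 1))) (by positivity),
      ENNReal.ofReal_mul (p := 4) (by norm_num),
      ENNReal.ofReal_mul (p := Real.exp (H937.CK lam E * (n + 1) * (1 + r + x))) (by positivity)]
  rw [e2, ← ENNReal.ofReal_natCast n, e3]
  exact mul_le_mul' (mul_le_mul' le_rfl h1) (mul_le_mul' h2 le_rfl)

theorem cadd_le (h : Adm lam (1 / 16384) (qC P) c (wC P)) (E : ℝ) (r n : ℕ) {x : ℝ}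
    (hx : 0 ≤ x) (m : ℝ) {Dm : ℝ} (hDm : 0 ≤ Dm) {ε1 K2 : ℝ}
    (h1 : ε1 = 4 * Real.exp (H937.CK lam E * (n + 1)) *
      (Real.exp (H937.CK lam E) * Real.exp (-x) * (2 * n)))
    (h2 : K2 = 4 * Real.exp (H937.CK lam E * (n + 1)) *
      (Real.exp (H937.CK lam E * (n + 1) * (1 + r + x)) * n)) :
    4 * Cadd (pL (1 / 16384) (qC P)) (DL lam (1 / 16384) (qC P) (wC P)) none (gpL lam P) lam
      ((2 * (lam - lam * (1 / 16384) / 2))⁻¹) (lam - 2 * (lam * (1 / 16384) / 2)) (kapL lam r) E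
      (Real.exp (-x)) m Dm n ≤
    ENNReal.ofReal (4 * (4 * m ^ 2 * 2 ^ n + (ε1 * n + K2) * (m ^ 2 * (Real.pi * Dm)))) := by
  have hpi := Real.pi_pos
  have hε0 : 0 ≤ ε1 := by
    rw [h1]
    positivity
  have hK0 : 0 ≤ K2 := by
    rw [h2]
    positivity
  have a1 := ceps_le h E n (x := x)
  have a2 := ctar_le h E r n hx
  rw [← h1] at a1
  rw [← h2] at a2
  have hg := h.good_ge
  have h3 : ENNReal.ofReal (1 / pL (1 / 16384) (qC P) none) ≤ ENNReal.ofReal 2 := by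
    refine ENNReal.ofReal_le_ofReal ?_
    rw [div_le_iff₀ (by linarith)]
    linarith
  unfold Cadd
  have e2 : (4 : ℝ≥0∞) = ENNReal.ofReal 4 := by rw [ENNReal.ofReal_ofNat]
  calc _ ≤ 4 * (ENNReal.ofReal (4 * m ^ 2) * ENNReal.ofReal 2 ^ n +
        (ENNReal.ofReal ε1 * n + ENNReal.ofReal K2) *
          ENNReal.ofReal (m ^ 2 * (Real.pi * Dm))) := by
        refine mul_le_mul' le_rfl (add_le_add (mul_le_mul' le_rfl (pow_le_pow_left' h3 n)) ?_)
        exact mul_le_mul' (add_le_add (mul_le_mul' a1 le_rfl) a2) le_rfl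
    _ = _ := by
        rw [e2, ← ENNReal.ofReal_natCast n, ← ENNReal.ofReal_pow (by norm_num),
          ← ENNReal.ofReal_mul (by positivity), ← ENNReal.ofReal_mul hε0,
          ← ENNReal.ofReal_add (by positivity) hK0, ← ENNReal.ofReal_mul (by positivity),
          ← ENNReal.ofReal_add (by positivity) (by positivity), ← ENNReal.ofReal_mul (by norm_num)]

/-- **the NORMAL part** -/
theorem norm_all3 {lam : ℝ} (hlam : 0 < lam) (E : ℝ) : NormAll lam E := by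
  have hC : 0 ≤ H937.CK lam E := by linarith [H937.two_le_CK hlam E]
  have hl2 : 0 < 2 * (lam - lam * (1 / 16384) / 2) := by linarith
  set Dm : ℝ := (2 * (lam - lam * (1 / 16384) / 2))⁻¹ with hDm
  have hDm0 : 0 ≤ Dm := inv_nonneg.2 hl2.le
  obtain ⟨R0, hR0⟩ := P365T1.HBnum3.num_all (H937.CK lam E) Dm hC hDm0
  refine ⟨max R0 2, le_max_right _ _, fun rs hrs yf Vsf I hy h N _ hdvd i hi s hs => ?_⟩
  have hrs2 : 2 ≤ rs := (le_max_right _ _).trans hrs
  have hs0 : 0 < s := (tS_pos rs I (i + 1)).trans hs.1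
  have hs1 : s ≤ 1 := hs.2.le
  have hok := DC_ok (lam := lam) (yf := yf) (Vsf := Vsf) (I := I) hrs2 hy h
  have hr : rs ≤ rr rs i := le_rr (by omega) i
  have hPok : (PP yf rs I).Ok := PP_ok hrs2 hy I
  have hr1 : 1 ≤ rr rs i := one_le_rr (by omega) i
  have hi' : i < (PP yf rs I).I + 1 := Nat.lt_succ_of_le hi
  have hm : 3 ≤ (DC lam yf Vsf rs I).m i := by
    show 3 ≤ 8 * rr rs i
    omega
  have hN2 : 2 ≤ N := by
    have h1 : mS rs i ∣ N := hdvd i hi
    have h2 : mS rs i ≤ N := Nat.le_of_dvd (Nat.pos_of_ne_zero (NeZero.ne N)) h1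
    have h3 : mS rs i = 8 * rr rs i := rfl
    omega
  have hybl : (DC lam yf Vsf rs I).y i ∈ blk ((DC lam yf Vsf rs I).m i) := by
    obtain ⟨h1, h2⟩ := y_lt hPok i
    exact Finset.mem_product.2 ⟨Finset.mem_range.2 h1, Finset.mem_range.2 h2⟩
  obtain ⟨hx0, hx1, hε0, hK0, hA0, hn1, hn2⟩ :=
    hR0 (rr rs i) (by omega) _ rfl _ rfl _ _ _ rfl rfl rfl
  set x : ℝ := (578 * H937.CK lam E + 1) * (rr rs i : ℝ) ^ 2 with hx
  have hA : Adm lam (1 / 16384) (qC (PP yf rs I)) (cS yf Vsf rs I) (wC (PP yf rs I)) := h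
  have hDg : DensLe Dm ((DC lam yf Vsf rs I).ν (DC lam yf Vsf rs I).good) :=
    nuD_densLe h none
  have hDy : DensLe Dm ((DC lam yf Vsf rs I).ν ((DC lam yf Vsf rs I).pat i
      ((DC lam yf Vsf rs I).y i))) := by
    have e : (DC lam yf Vsf rs I).pat i ((DC lam yf Vsf rs I).y i) =
        (PP yf rs I).mark ⟨i, hi'⟩ := pat_y hPok hi'
    rw [e]
    exact nuD_densLe h ((PP yf rs I).mark ⟨i, hi'⟩)
  have key := hok.normA (N := N) (nlaw hA hi') (E := E) (i := i) hi hs0 hN2 hm (hdvd i hi) hybl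
    (fun j _ a => pat_ne_none j a)
    (fun l z => prof_DD_one hrs2 hok hi hs0.le hs1 l z)
    (fun a => Or.inr ⟨a, rfl⟩) (Dm := Dm) hDg hDy (ε := Real.exp (-x)) (Real.exp_pos _) hx1
  exact ⟨_, _, _, hA0, hε0, hK0, NormA_mono key
    (cadd_le hA E (rr rs i) (9 * (8 * rr rs i) ^ 2) hx0 _ hDm0 rfl rfl)
    (ceps_le hA E (9 * (8 * rr rs i) ^ 2))
    (ctar_le hA E (rr rs i) (9 * (8 * rr rs i) ^ 2) hx0), hn1, hn2⟩

/-- **T1**: the flow inequality of the uniform law at every coupling -/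
theorem flow_nuL {lam : ℝ} (hlam : 0 < lam) : FlowIn (nuL lam) lam :=
  flow_of_norm hlam fun E _ => norm_all3 hlam E

end P365T1.HB3
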