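import Vale.Agent.P365.T1.BulkF
import Vale.Agent.P365.T1.CofKK
import Vale.Agent.P365.C937.SwitchLab

/-!
# P365-T1: NORMAL half of the bulk hub, one region, one exterior (helper256)

`K` = connected region, `Q = nb1 (nb1 K)`; labels on `K` are switched to good (937), every site of
`K` is compared with two targets (256's `bulk_full` on `Q`).
-/

set_option autoImplicit false
set_option linter.all false

open MeasureTheory Finset Function Matrix Complex P365L P365O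
open scoped ENNReal

namespace P365T1.Normal

open P365T1 P365T1.MAff P365T1.OneVar P365T1.Bad P365T1.Switch

variable {ι : Type*} [Fintype ι] [DecidableEq ι]
variable {F : Type*} [NormedAddCommGroup F] [NormedSpace ℂ F]
variable {A : Matrix ι ι ℝ}

/-- uniform constant of the crude Harnack inequality on a region with at most `n` sites -/
noncomputable def KBm (E L κ ε : ℝ) (n : ℕ) : ℝ :=
  KB E L 1 (c2c E L n) (ε ^ n) n / κ ^ n

theorem KB_le {E L e c2 c2' p p' : ℝ} {n n' : ℕ} (hL : 0 < L) (he0 : 0 ≤ e) (he : e ≤ 1)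
    (hc : 0 < c2') (hc2 : c2' ≤ c2) (hp : 0 < p') (hpp : p' ≤ p) (hn : n ≤ n') :
    KB E L e c2 p n ≤ KB E L 1 c2' p' n' := by
  unfold KB
  have h1 : (L + e) ^ 2 ≤ (L + 1) ^ 2 := by gcongr
  have h2 : (2 / (L * c2 * p)) ^ 2 ≤ (2 / (L * c2' * p')) ^ 2 := by
    have : 0 < c2 := hc.trans_le hc2
    have : 0 < p := hp.trans_le hpp
    gcongr
  have h3 : (52488 : ℝ) ^ n ≤ 52488 ^ n' := pow_le_pow_right₀ (by norm_num) hn
  gcongr

theorem KBm_nonneg {E L κ ε : ℝ} (n : ℕ) (hκ : 0 < κ) : 0 ≤ KBm E L κ ε n := by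
  unfold KBm KB
  positivity

/-- **crude Harnack on the region**, uniform constants -/
theorem harnack [MeasurableSpace F] [BorelSpace F] (hG : Gph A) {K : Finset ι} {z y : ι}
    (hzy : Joined A K z y) (hne : z ≠ y) {n : ℕ} (hn : (nb1 A (nb1 A K)).card ≤ n)
    {E L lam : ℝ} (hL : 0 < L) (hlam : lam ^ 2 + 1 ≤ L ^ 2)
    {e e' : ι → ℝ} (he : ∀ i, 0 < e i) (he' : ∀ i, 0 < e' i)
    (he1 : ∀ i ∈ nb1 A (nb1 A K), e i ≤ 1) (he1' : ∀ i ∈ nb1 A (nb1 A K), e' i ≤ 1)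
    (hoff : ∀ i ∉ nb1 A (nb1 A K), e i = e' i)
    (T : (ι → ℂ) →ₗ[ℂ] F) {ε : ℝ} (hε : 0 < ε) (hε1 : ε ≤ 1 / 2)
    (ν ν' : ι → Measure ℝ) [∀ i, IsProbabilityMeasure (ν i)] [∀ i, IsProbabilityMeasure (ν' i)]
    (hνoff : ∀ i ∉ nb1 A (nb1 A K), ν i = ν' i) {ρ ρ' : ι → ℝ → ℝ} {g g' : ι → GP}
    (hg : ∀ i ∈ nb1 A (nb1 A K), GLw (ν i) (ρ i) (g i))
    (hg' : ∀ i ∈ nb1 A (nb1 A K), GLw (ν' i) (ρ' i) (g' i))
    (hgL : ∀ i ∈ nb1 A (nb1 A K), (g i).L ≤ lam) (hgL' : ∀ i ∈ nb1 A (nb1 A K), (g' i).L ≤ lam)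
    {κ : ℝ} (hκ : 0 < κ) (hκ1 : κ ≤ 1)
    (hκg : ∀ i ∈ nb1 A (nb1 A K), κ ≤ (g' i).m * (g' i).δ ^ 2 / (16 * (2 * L) ^ 2)) {C : ℝ}
    (hC : ∀ i ∈ nb1 A (nb1 A K), ∀ j ∈ nb1 A (nb1 A K), Cev E (g i) (g j) ≤ C) :
    ∫⁻ v, ENNReal.ofReal (Yv A (WV E e v) T z) ∂(Measure.pi ν) ≤
      ∑ b ∈ (nb1 A (nb1 A K)).erase z, ENNReal.ofReal (C * (8 * L * ε)) *
          ∫⁻ v, ENNReal.ofReal (‖OneVar.GV A (WV E e v) T z‖ ^ 2 +
            ‖OneVar.GV A (WV E e v) T b‖ ^ 2) ∂(Measure.pi ν)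
      + ENNReal.ofReal (KBm E L κ ε n) *
        ∫⁻ v, ENNReal.ofReal (‖OneVar.GV A (WV E e' v) T y‖ ^ 2) ∂(Measure.pi ν') := by
  classical
  set Q := nb1 A (nb1 A K) with hQ
  have hKQ : K ⊆ Q := (sub_nb1 A K).trans (sub_nb1 A _)
  have hzQ : z ∈ Q := hKQ hzy.left_mem
  have hyQ : y ∈ Q := hKQ hzy.right_mem
  set x' : Q := ⟨z, hzQ⟩
  set y' : Q := ⟨y, hyQ⟩
  have hxy' : x' ≠ y' := fun h => hne (congrArg Subtype.val h)
  have hcard : (nb1 A K).card ≤ n := (Finset.card_le_card (sub_nb1 A _)).trans hn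
  have hL0 := hL
  have hcof : CofLe A Q E (fun _ => 0) L (c2c E L (nb1 A K).card) x' y' :=
    cofLe_conn' hG hzy (le_refl _) hL (fun i _ => le_rfl) (fun i _ => zero_le_one) x' y' rfl rfl
  have hc2pos : ∀ k, 0 < c2c E L k := fun k => by
    unfold c2c
    have : 0 < C0c E L := C0c_pos hL
    positivity
  have hmain := bulk_full hG.symm hL he he' hoff x' y' hxy' (he1 z hzQ) T (hc2pos _) hcof
    (ε := fun _ => ε) (fun _ => hε) (fun _ => hε1)
    (fun i hi => by nlinarith [he1 i hi, he i])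
    (fun i hi => by nlinarith [he1' i hi, he' i])
    ν ν' hνoff hg hg' hgL hgL' hκ hκg
  refine hmain.trans (add_le_add ?_ ?_)
  · have h1 : ∀ l ∈ (Finset.univ : Finset Q).erase x',
        ENNReal.ofReal (Cev E (g x') (g l) * (8 * L * ε)) *
          ∫⁻ v, ENNReal.ofReal (‖OneVar.GV A (WV E e v) T x'‖ ^ 2 +
            ‖OneVar.GV A (WV E e v) T l‖ ^ 2) ∂(Measure.pi ν) ≤
        ENNReal.ofReal (C * (8 * L * ε)) *
          ∫⁻ v, ENNReal.ofReal (‖OneVar.GV A (WV E e v) T z‖ ^ 2 +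
            ‖OneVar.GV A (WV E e v) T (l : ι)‖ ^ 2) ∂(Measure.pi ν) := by
      intro l _
      refine mul_le_mul' (ENNReal.ofReal_le_ofReal ?_) le_rfl
      exact mul_le_mul_of_nonneg_right (hC _ hzQ _ l.2) (by positivity)
    refine (Finset.sum_le_sum h1).trans (le_of_eq ?_)
    symm
    refine Finset.sum_bij' (fun b hb => ⟨b, Finset.mem_of_mem_erase hb⟩) (fun l _ => (l : ι))
      ?_ ?_ ?_ ?_ ?_
    · intro b hb
      rw [Finset.mem_erase]
      exact ⟨fun h => (Finset.mem_erase.1 hb).1 (congrArg Subtype.val h), Finset.mem_univ _⟩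
    · intro l hl
      rw [Finset.mem_erase]
      exact ⟨fun h => (Finset.mem_erase.1 hl).1 (Subtype.ext h), l.2⟩
    · intro b hb
      rfl
    · intro l hl
      rfl
    · intro b hb
      rfl
  · refine mul_le_mul' (ENNReal.ofReal_le_ofReal ?_) le_rfl
    unfold KBm
    have hp : (∏ _l : Q, ε) = ε ^ Q.card := by
      rw [Finset.prod_const, Finset.card_univ, Fintype.card_coe]
    rw [hp]
    have h1 : KB E L (e x') (c2c E L (nb1 A K).card) (ε ^ Q.card) Q.card ≤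
        KB E L 1 (c2c E L n) (ε ^ n) n :=
      KB_le hL (he _).le (he1 z hzQ) (hc2pos n) (c2c_anti hL hcard) (by positivity)
        (pow_le_pow_of_le_one hε.le (hε1.trans (by norm_num)) hn) hn
    have h2 : κ ^ n ≤ κ ^ Q.card := pow_le_pow_of_le_one hκ.le hκ1 hn
    have h3 : 0 ≤ KB E L 1 (c2c E L n) (ε ^ n) n := by unfold KB; positivity
    exact div_le_div₀ h3 h1 (by positivity) h2

/-! ### labels -/

variable {Λ : Type*} [Fintype Λ] [DecidableEq Λ]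

/-- hypotheses on the label laws; `reg` = labels with a regular law (good, marks, windows) -/
structure NLaw (p : Λ → ℝ) (ν : Λ → Measure ℝ) (g : Λ) (reg : Λ → Prop) (lam κg ag κ : ℝ)
    (D : Λ → ℝ) (ρ : Λ → ℝ → ℝ) (gp : Λ → GP) : Prop where
  p0 : ∀ k, 0 ≤ p k
  p1 : ∑ k, p k = 1
  pg : 0 < p g
  lam0 : 0 ≤ lam
  supp : ∀ k, ∀ᵐ u ∂ν k, |u| ≤ lam
  dens : ∀ k, DensLe (D k) (ν k)
  κg_pos : 0 < κg
  ag_pos : 0 < ag
  ag_le : ag ≤ lam
  good : DensGe κg ag (ν g)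
  reg_g : reg g
  glw : ∀ k, reg k → GLw (ν k) (ρ k) (gp k)
  gL : ∀ k, reg k → (gp k).L ≤ lam
  κ_pos : 0 < κ
  κ_le : κ ≤ 1
  κ_reg : ∀ k, reg k → κ ≤ (gp k).m * (gp k).δ ^ 2 / (16 * (2 * (lam + 1)) ^ 2)

/-- expected square of the far vector -/
noncomputable def GE (A : Matrix ι ι ℝ) (ν : Λ → Measure ℝ) (E : ℝ) (e : (ι → Λ) → ι → ℝ)
    (T : (ι → ℂ) →ₗ[ℂ] F) (l : ι → Λ) (b : ι) : ℝ≥0∞ :=
  ∫⁻ v, ENNReal.ofReal (‖OneVar.GV A (WV E (e l) v) T b‖ ^ 2) ∂Measure.pi fun z => ν (l z)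

/-- expected off-resonant energy -/
noncomputable def YE (A : Matrix ι ι ℝ) (ν : Λ → Measure ℝ) (E : ℝ) (e : (ι → Λ) → ι → ℝ)
    (T : (ι → ℂ) →ₗ[ℂ] F) (l : ι → Λ) (b : ι) : ℝ≥0∞ :=
  ∫⁻ v, ENNReal.ofReal (Yv A (WV E (e l) v) T b) ∂Measure.pi fun z => ν (l z)

/-- probability of a label configuration -/
noncomputable def Pr (p : Λ → ℝ) (l : ι → Λ) : ℝ≥0∞ := ENNReal.ofReal (∏ z, p (l z))

/-- constant of the switch -/
noncomputable def Csw (p : Λ → ℝ) (D : Λ → ℝ) (g : Λ) (L κg ag : ℝ) (n : ℕ) : ℝ≥0∞ :=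
  2 * (∑ b, ENNReal.ofReal (p b) * CuE L (D b)) ^ n * ENNReal.ofReal (1 / p g) ^ n *
    ENNReal.ofReal (max 1 (Kd L κg ag)) ^ n

omit [Fintype ι] [DecidableEq ι] [Fintype Λ] [DecidableEq Λ] in
theorem pow_mono_ennreal {a : ℝ≥0∞} (ha : 1 ≤ a) {n m : ℕ} (h : n ≤ m) : a ^ n ≤ a ^ m :=
  pow_le_pow_right₀ ha h

variable {p : Λ → ℝ} {ν : Λ → Measure ℝ} [∀ k, IsProbabilityMeasure (ν k)] {g : Λ}
variable {reg : Λ → Prop} {lam κg ag κ : ℝ} {D : Λ → ℝ} {ρ : Λ → ℝ → ℝ} {gp : Λ → GP}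

theorem one_le_Bs (h : NLaw p ν g reg lam κg ag κ D ρ gp) (L : ℝ) :
    1 ≤ ∑ b, ENNReal.ofReal (p b) * CuE L (D b) := by
  calc (1 : ℝ≥0∞) = ENNReal.ofReal (∑ b, p b) := by rw [h.p1, ENNReal.ofReal_one]
    _ = ∑ b, ENNReal.ofReal (p b) := ENNReal.ofReal_sum_of_nonneg fun b _ => h.p0 b
    _ ≤ ∑ b, ENNReal.ofReal (p b) * CuE L (D b) := by
        refine Finset.sum_le_sum fun b _ => ?_
        exact le_mul_of_one_le_right (zero_le) (one_le_CuE _ _)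

theorem pg_le (h : NLaw p ν g reg lam κg ag κ D ρ gp) : p g ≤ 1 := by
  rw [← h.p1]
  exact Finset.single_le_sum (fun b _ => h.p0 b) (Finset.mem_univ g)

/-- **switching on the region, one exterior** -/
theorem switch_fib (hA : A.IsSymm) (h : NLaw p ν g reg lam κg ag κ D ρ gp) {E : ℝ}
    {e : (ι → Λ) → ι → ℝ} (he : ∀ l z, 0 < e l z) (he1 : ∀ l z, e l z ≤ 1) {K : Finset ι}
    {l' : ι → Λ} {S : Finset (ι → Λ)} (hS : ∀ l ∈ S, swf K g l = l')
    (hloc : ∀ l ∈ S, ∀ z ∉ K, e l z = e l' z) {x : ι} (hx : x ∈ K) {n : ℕ} (hn : K.card ≤ n)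
    (T : (ι → ℂ) →ₗ[ℂ] F) :
    ∑ l ∈ S, Pr p l * YE A ν E e T l x ≤
      Csw p D g (lam + |E| + 1) κg ag n * (Pr p l' * ∑ z ∈ K, YE A ν E e T l' z) := by
  classical
  set L : ℝ := lam + |E| + 1 with hL
  have hB : ∀ l'' ∈ S.image (swf K g), ∑ l ∈ S.filter (fun l => swf K g l = l''),
      ∏ k ∈ K, (ENNReal.ofReal (p (l k)) * CuE L (D (l k))) ≤
      (∑ b, ENNReal.ofReal (p b) * CuE L (D b)) ^ K.card := fun l'' _ => inside_le S l''
  have h1 := switch_sum hA T h.p0 he h.pg (S := S) (fun l hl z hz => by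
      rw [hS l hl]; exact hloc l hl z hz) hx (D := D) (E := E) (L := L) (κ := κg) (a := ag)
    (fun l _ k _ => h.dens _)
    (fun l _ k _ => by
      filter_upwards [h.supp (l k)] with u hu
      have := he1 l k
      have := abs_sub u E
      linarith)
    h.good h.κg_pos h.ag_pos (fun l _ k _ => by
      have := he1 (swf K g l) k
      have := h.ag_le
      linarith) hB
  refine h1.trans ?_
  have h2 : ∑ l'' ∈ S.image (swf K g), ENNReal.ofReal (∏ z, p (l'' z)) *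
        ∑ z ∈ K, ∫⁻ v, ENNReal.ofReal (Yv A (WV E (e l'') v) T z)
          ∂Measure.pi (fun z => ν (l'' z)) ≤
      Pr p l' * ∑ z ∈ K, YE A ν E e T l' z := by
    have h3 : S.image (swf K g) ⊆ {l'} := by
      intro l'' hl''
      obtain ⟨l, hl, rfl⟩ := Finset.mem_image.1 hl''
      rw [hS l hl]
      exact Finset.mem_singleton_self _
    refine (Finset.sum_le_sum_of_subset h3).trans ?_
    rw [Finset.sum_singleton]
    exact le_rfl
  refine mul_le_mul' ?_ h2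
  unfold Csw
  have h4 : ENNReal.ofReal (Kd L κg ag) ^ (K.card - 1) ≤
      ENNReal.ofReal (max 1 (Kd L κg ag)) ^ n := by
    calc ENNReal.ofReal (Kd L κg ag) ^ (K.card - 1)
        ≤ ENNReal.ofReal (max 1 (Kd L κg ag)) ^ (K.card - 1) :=
          pow_le_pow_left' (ENNReal.ofReal_le_ofReal (le_max_right _ _)) _
      _ ≤ _ := pow_mono_ennreal (by
          rw [← ENNReal.ofReal_one]; exact ENNReal.ofReal_le_ofReal (le_max_left _ _)) (by omega)
  have h5 : (1 : ℝ≥0∞) ≤ ENNReal.ofReal (1 / p g) := by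
    rw [← ENNReal.ofReal_one]
    refine ENNReal.ofReal_le_ofReal ?_
    rw [le_div_iff₀ h.pg]
    linarith [pg_le h]
  exact mul_le_mul' (mul_le_mul' (mul_le_mul' le_rfl (pow_mono_ennreal (one_le_Bs h L) hn))
    (pow_mono_ennreal h5 hn)) h4


theorem measurable_GVn (T : (ι → ℂ) →ₗ[ℂ] F) (E : ℝ) (e : ι → ℝ) (z : ι) :
    Measurable fun v : ι → ℝ => ENNReal.ofReal (‖OneVar.GV A (WV E e v) T z‖ ^ 2) :=
  measurable_MV (A := A) T (fun v => WV E e v) (fun x => by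
    unfold WV
    have h1 : Measurable fun v : ι → ℝ => v x - E := by fun_prop
    exact (Complex.measurable_ofReal.comp h1).sub_const _) z

/-- **one exterior**: the sum over the configurations of the region which switch to `l'` -/
theorem fib_all [MeasurableSpace F] [BorelSpace F] (hG : Gph A)
    (h : NLaw p ν g reg lam κg ag κ D ρ gp) {E : ℝ}
    {e : (ι → Λ) → ι → ℝ} (he : ∀ l z, 0 < e l z) (he1 : ∀ l z, e l z ≤ 1) {K : Finset ι}
    (hconn : ∀ a ∈ K, ∀ b ∈ K, Joined A K a b) {n : ℕ} (hn : (nb1 A (nb1 A K)).card ≤ n)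
    {l' : ι → Λ} (hl' : ∀ z ∈ nb1 A (nb1 A K), l' z = g)
    {S : Finset (ι → Λ)} (hS : ∀ l ∈ S, swf K g l = l')
    (hloc : ∀ l ∈ S, ∀ z ∉ K, e l z = e l' z) {x : ι} (hx : x ∈ K)
    {y : Bool → ι} (hy : ∀ j, y j ∈ K) (hne : y true ≠ y false) {l2 : Bool → ι → Λ}
    (hreg : ∀ j, ∀ z ∈ nb1 A (nb1 A K), reg (l2 j z))
    (hout : ∀ j, ∀ z ∉ nb1 A (nb1 A K), l2 j z = l' z)
    (heout : ∀ j, ∀ z ∉ nb1 A (nb1 A K), e (l2 j) z = e l' z)
    {ε : ℝ} (hε : 0 < ε) (hε1 : ε ≤ 1 / 2) (T : (ι → ℂ) →ₗ[ℂ] F) :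
    ∑ l ∈ S, Pr p l * YE A ν E e T l x ≤
      Csw p D g (lam + |E| + 1) κg ag n * (Pr p l' *
        (ENNReal.ofReal (Cev E (gp g) (gp g) * (8 * (lam + 1) * ε)) * (2 * n) *
            ∑ b ∈ nb1 A (nb1 A K), GE A ν E e T l' b +
          ENNReal.ofReal (KBm E (lam + 1) κ ε n) * n * ∑ j, GE A ν E e T (l2 j) (y j))) := by
  classical
  have hKQ : K ⊆ nb1 A (nb1 A K) := (sub_nb1 A K).trans (sub_nb1 A _)
  have hKn : K.card ≤ n := (Finset.card_le_card hKQ).trans hn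
  refine (switch_fib hG.symm h he he1 hS hloc hx hKn T).trans ?_
  refine mul_le_mul' le_rfl (mul_le_mul' le_rfl ?_)
  set Q := nb1 A (nb1 A K) with hQ
  set c1 : ℝ≥0∞ := ENNReal.ofReal (Cev E (gp g) (gp g) * (8 * (lam + 1) * ε)) with hc1
  set k1 : ℝ≥0∞ := ENNReal.ofReal (KBm E (lam + 1) κ ε n) with hk1
  have hlam0 := h.lam0
  -- one source
  have key : ∀ z ∈ K, YE A ν E e T l' z ≤
      ∑ b ∈ Q.erase z, c1 * (GE A ν E e T l' z + GE A ν E e T l' b) +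
        k1 * ∑ j, GE A ν E e T (l2 j) (y j) := by
    intro z hz
    obtain ⟨j, hj⟩ : ∃ j, z ≠ y j := by
      by_cases h1 : z = y true
      · exact ⟨false, fun h2 => hne (h1.symm.trans h2)⟩
      · exact ⟨true, h1⟩
    have h1 := harnack (A := A) hG (hconn z hz (y j) (hy j)) hj hn (E := E) (L := lam + 1)
      (lam := lam) (by linarith) (by nlinarith) (he l') (he (l2 j)) (fun i _ => he1 l' i)
      (fun i _ => he1 (l2 j) i) (fun i hi => (heout j i hi).symm) T hε hε1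
      (fun i => ν (l' i)) (fun i => ν (l2 j i)) (fun i hi => by rw [hout j i hi])
      (ρ := fun i => ρ (l' i)) (ρ' := fun i => ρ (l2 j i)) (g := fun i => gp (l' i))
      (g' := fun i => gp (l2 j i))
      (fun i hi => by rw [hl' i hi]; exact h.glw g h.reg_g)
      (fun i hi => h.glw _ (hreg j i hi))
      (fun i hi => by rw [hl' i hi]; exact h.gL g h.reg_g)
      (fun i hi => h.gL _ (hreg j i hi)) h.κ_pos h.κ_le
      (fun i hi => h.κ_reg _ (hreg j i hi)) (C := Cev E (gp g) (gp g))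
      (fun i hi i' hi' => by rw [hl' i hi, hl' i' hi'])
    refine h1.trans (add_le_add (Finset.sum_le_sum fun b _ => ?_) ?_)
    · refine mul_le_mul' le_rfl (le_of_eq ?_)
      unfold GE
      rw [← lintegral_add_left (measurable_GVn T E _ z)]
      refine lintegral_congr fun v => ?_
      rw [ENNReal.ofReal_add (sq_nonneg _) (sq_nonneg _)]
    · refine mul_le_mul' le_rfl ?_
      exact Finset.single_le_sum (f := fun j => GE A ν E e T (l2 j) (y j))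
        (fun _ _ => zero_le) (Finset.mem_univ j)
  set GS : ℝ≥0∞ := ∑ b ∈ Q, GE A ν E e T l' b with hGS
  set GJ : ℝ≥0∞ := ∑ j, GE A ν E e T (l2 j) (y j) with hGJ
  have hcardK : (K.card : ℝ≥0∞) ≤ n := by exact_mod_cast hKn
  have hcardQ : (Q.card : ℝ≥0∞) ≤ n := by exact_mod_cast hn
  calc ∑ z ∈ K, YE A ν E e T l' z
      ≤ ∑ z ∈ K, (∑ b ∈ Q, c1 * (GE A ν E e T l' z + GE A ν E e T l' b) + k1 * GJ) := by
        refine Finset.sum_le_sum fun z hz => (key z hz).trans (add_le_add ?_ le_rfl)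
        exact Finset.sum_le_sum_of_subset (Finset.erase_subset _ _)
    _ = c1 * (Q.card * ∑ z ∈ K, GE A ν E e T l' z + K.card * GS) + K.card * (k1 * GJ) := by
        rw [Finset.sum_add_distrib, Finset.sum_const, nsmul_eq_mul]
        congr 1
        have e1 : ∀ z ∈ K, ∑ b ∈ Q, c1 * (GE A ν E e T l' z + GE A ν E e T l' b) =
            c1 * (Q.card * GE A ν E e T l' z + GS) := by
          intro z _
          rw [← Finset.mul_sum, Finset.sum_add_distrib, Finset.sum_const, nsmul_eq_mul]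
        rw [Finset.sum_congr rfl e1, ← Finset.mul_sum, Finset.sum_add_distrib, Finset.sum_const,
          nsmul_eq_mul, ← Finset.mul_sum]
    _ ≤ c1 * (n * GS + n * GS) + n * (k1 * GJ) := by
        gcongr
        exact Finset.sum_le_sum_of_subset hKQ
    _ = c1 * (2 * n) * GS + k1 * n * GJ := by ring

end P365T1.Normal
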