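import Vale.Agent.P365.T1c.NormalA
import Vale.Agent.P365.T1.BulkAll16
import Vale.Agent.P365.T1.FarT16

/-!
# P365-T1: NORMAL half of the bulk hub, fixed region and exterior, one target (helper256)

`fixed_one` : for one function `f`; all constants explicit.
-/

set_option autoImplicit false
set_option linter.all false

open MeasureTheory Finset Function Matrix Complex P365L P365O
open scoped ENNReal

namespace P365T1.Normal

open P365T1 P365T1.MAff P365T1.OneVar P365T1.Bad P365T1.Switch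

variable {ι : Type*} [Fintype ι] [DecidableEq ι]
variable {F : Type*} [NormedAddCommGroup F] [NormedSpace ℂ F]
variable {A : Matrix ι ι ℝ}

/-- **crude Harnack on a patch**, uniform constants, `z = y` allowed -/
theorem harnack_all [MeasurableSpace F] [BorelSpace F] (hA : A.IsSymm) {Q : Finset ι} {z y : ι}
    (hz : z ∈ Q) (hy : y ∈ Q) {n : ℕ} (hn : Q.card ≤ n)
    {E L lam : ℝ} (hL : 0 < L) (hlam : lam ^ 2 + 1 ≤ L ^ 2)
    (hcof : z ≠ y → CofLe A Q E (fun _ => 0) L (c2c E L n) ⟨z, hz⟩ ⟨y, hy⟩)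
    {e e' : ι → ℝ} (he : ∀ i, 0 < e i) (he' : ∀ i, 0 < e' i)
    (he1 : ∀ i ∈ Q, e i ≤ 1) (he1' : ∀ i ∈ Q, e' i ≤ 1)
    (hoff : ∀ i ∉ Q, e i = e' i)
    (T : (ι → ℂ) →ₗ[ℂ] F) {ε : ℝ} (hε : 0 < ε) (hε1 : ε ≤ 1 / 2)
    (ν ν' : ι → Measure ℝ) [∀ i, IsProbabilityMeasure (ν i)] [∀ i, IsProbabilityMeasure (ν' i)]
    (hνoff : ∀ i ∉ Q, ν i = ν' i) {ρ ρ' : ι → ℝ → ℝ} {g g' : ι → GP}
    (hg : ∀ i ∈ Q, GLw (ν i) (ρ i) (g i))
    (hg' : ∀ i ∈ Q, GLw (ν' i) (ρ' i) (g' i))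
    (hgL : ∀ i ∈ Q, (g i).L ≤ lam) (hgL' : ∀ i ∈ Q, (g' i).L ≤ lam)
    {κ : ℝ} (hκ : 0 < κ) (hκ1 : κ ≤ 1)
    (hκg : ∀ i ∈ Q, κ ≤ (g' i).m * (g' i).δ ^ 2 / (16 * (2 * L) ^ 2)) {C : ℝ}
    (hC : ∀ i ∈ Q, ∀ j ∈ Q, Cev E (g i) (g j) ≤ C) :
    ∫⁻ v, ENNReal.ofReal (Yv A (WV E e v) T z) ∂(Measure.pi ν) ≤
      ∑ b ∈ Q.erase z, ENNReal.ofReal (C * (8 * L * ε)) *
          ∫⁻ v, ENNReal.ofReal (‖OneVar.GV A (WV E e v) T z‖ ^ 2 +
            ‖OneVar.GV A (WV E e v) T b‖ ^ 2) ∂(Measure.pi ν)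
      + ENNReal.ofReal (KBm E L κ ε n) *
        ∫⁻ v, ENNReal.ofReal (‖OneVar.GV A (WV E e' v) T y‖ ^ 2) ∂(Measure.pi ν') := by
  classical
  set x' : Q := ⟨z, hz⟩ with hx'
  set y' : Q := ⟨y, hy⟩ with hy'
  have hn1 : 1 ≤ n := (Finset.card_pos.2 ⟨z, hz⟩).trans_le hn
  have hc2pos : ∀ k, 0 < c2c E L k := fun k => by
    unfold c2c
    have : 0 < C0c E L := C0c_pos hL
    positivity
  have hmain := bulk_full_all hA hL he he' hoff x' y' (he1 z hz) T (hc2pos n)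
    (c2c_le_two_div hL hn1) (fun h => hcof fun h' => h (Subtype.ext h'))
    (ε := fun _ => ε) (fun _ => hε) (fun _ => hε1)
    (fun i hi => by nlinarith [he1 i hi, he i])
    (fun i hi => by nlinarith [he1' i hi, he' i])
    ν ν' hνoff hg hg' hgL hgL' hκ hκg
  refine hmain.trans (add_le_add ?_ ?_)
  · have h1 : ∀ l ∈ (Finset.univ : Finset Q).erase x',
        ENNReal.ofReal (Cev E (g x') (g l) * (8 * L * ε)) *
          ∫⁻ v, ENNReal.ofReal (‖OneVar.GV A (WV E e v) T x'‖ ^ 2 +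
            ‖OneVar.GV A (WV E e v) T l‖ ^ 2) ∂(Measure.pi ν) ≤
        ENNReal.ofReal (C * (8 * L * ε)) *
          ∫⁻ v, ENNReal.ofReal (‖OneVar.GV A (WV E e v) T z‖ ^ 2 +
            ‖OneVar.GV A (WV E e v) T (l : ι)‖ ^ 2) ∂(Measure.pi ν) := by
      intro l _
      refine mul_le_mul' (ENNReal.ofReal_le_ofReal ?_) le_rfl
      exact mul_le_mul_of_nonneg_right (hC _ hz _ l.2) (by positivity)
    refine (Finset.sum_le_sum h1).trans (le_of_eq ?_)
    symm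
    refine Finset.sum_bij' (fun b hb => ⟨b, Finset.mem_of_mem_erase hb⟩) (fun l _ => (l : ι))
      ?_ ?_ ?_ ?_ ?_
    · intro b hb
      rw [Finset.mem_erase]
      exact ⟨fun h => (Finset.mem_erase.1 hb).1 (congrArg Subtype.val h), Finset.mem_univ _⟩
    · intro l hl
      rw [Finset.mem_erase]
      exact ⟨fun h => (Finset.mem_erase.1 hl).1 (Subtype.ext h), l.2⟩
    · intro b hb
      rfl
    · intro l hl
      rfl
    · intro b hb
      rfl
  · refine mul_le_mul' (ENNReal.ofReal_le_ofReal ?_) le_rfl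
    unfold KBm
    have hp : (∏ _l : Q, ε) = ε ^ Q.card := by
      rw [Finset.prod_const, Finset.card_univ, Fintype.card_coe]
    rw [hp]
    have h1 : KB E L (e x') (c2c E L n) (ε ^ Q.card) Q.card ≤
        KB E L 1 (c2c E L n) (ε ^ n) n :=
      KB_le hL (he _).le (he1 z hz) (hc2pos n) le_rfl (by positivity)
        (pow_le_pow_of_le_one hε.le (hε1.trans (by norm_num)) hn) hn
    have h2 : κ ^ n ≤ κ ^ Q.card := pow_le_pow_of_le_one hκ.le hκ1 hn
    have h3 : 0 ≤ KB E L 1 (c2c E L n) (ε ^ n) n := by unfold KB; positivity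
    exact div_le_div₀ h3 h1 (by positivity) h2

variable {Λ : Type*} [Fintype Λ] [DecidableEq Λ]
variable {p : Λ → ℝ} {ν : Λ → Measure ℝ} [∀ k, IsProbabilityMeasure (ν k)] {g : Λ}
variable {reg : Λ → Prop} {lam κg ag κ : ℝ} {D : Λ → ℝ} {ρ : Λ → ℝ → ℝ} {gp : Λ → GP}

/-- **one exterior, one target** -/
theorem fib_one [MeasurableSpace F] [BorelSpace F] (hA : A.IsSymm)
    (h : NLaw p ν g reg lam κg ag κ D ρ gp) {E : ℝ}
    {e : (ι → Λ) → ι → ℝ} (he : ∀ l z, 0 < e l z) (he1 : ∀ l z, e l z ≤ 1) {K Q : Finset ι}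
    (hKQ : K ⊆ Q) {n : ℕ} (hn : Q.card ≤ n) {y : ι} (hy : y ∈ Q)
    (hcof : ∀ z (hz : z ∈ K), z ≠ y →
      CofLe A Q E (fun _ => 0) (lam + 1) (c2c E (lam + 1) n) ⟨z, hKQ hz⟩ ⟨y, hy⟩)
    {l' : ι → Λ} (hl' : ∀ z ∈ Q, l' z = g)
    {S : Finset (ι → Λ)} (hS : ∀ l ∈ S, ∀ z ∉ K, l z = l' z)
    (hloc : ∀ l ∈ S, ∀ z ∉ K, e l z = e l' z) {x : ι} (hx : x ∈ K)
    {l2 : ι → Λ} (hreg : ∀ z ∈ Q, reg (l2 z)) (hout : ∀ z ∉ Q, l2 z = l' z)
    (heout : ∀ z ∉ Q, e l2 z = e l' z)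
    {ε : ℝ} (hε : 0 < ε) (hε1 : ε ≤ 1 / 2) (T : (ι → ℂ) →ₗ[ℂ] F) :
    ∑ l ∈ S, Pr p l * YE A ν E e T l x ≤
      Csw p D g (lam + |E| + 1) κg ag n * (Pr p l' *
        (ENNReal.ofReal (Cev E (gp g) (gp g) * (8 * (lam + 1) * ε)) * (2 * n) *
            ∑ b ∈ Q, GE A ν E e T l' b +
          ENNReal.ofReal (KBm E (lam + 1) κ ε n) * n * GE A ν E e T l2 y)) := by
  classical
  have hKn : K.card ≤ n := (Finset.card_le_card hKQ).trans hn
  have hsw : ∀ l ∈ S, swf K g l = l' := by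
    intro l hl
    funext z
    by_cases hz : z ∈ K
    · rw [swf_in hz, hl' z (hKQ hz)]
    · rw [swf_out hz, hS l hl z hz]
  refine (switch_fib hA h he he1 hsw hloc hx hKn T).trans ?_
  refine mul_le_mul' le_rfl (mul_le_mul' le_rfl ?_)
  set c1 : ℝ≥0∞ := ENNReal.ofReal (Cev E (gp g) (gp g) * (8 * (lam + 1) * ε)) with hc1
  set k1 : ℝ≥0∞ := ENNReal.ofReal (KBm E (lam + 1) κ ε n) with hk1
  have hlam0 := h.lam0
  have key : ∀ z ∈ K, YE A ν E e T l' z ≤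
      ∑ b ∈ Q.erase z, c1 * (GE A ν E e T l' z + GE A ν E e T l' b) +
        k1 * GE A ν E e T l2 y := by
    intro z hz
    have h1 := harnack_all (A := A) hA (hKQ hz) hy hn (E := E) (L := lam + 1)
      (lam := lam) (by linarith) (by nlinarith) (hcof z hz) (he l') (he l2)
      (fun i _ => he1 l' i) (fun i _ => he1 l2 i) (fun i hi => (heout i hi).symm) T hε hε1
      (fun i => ν (l' i)) (fun i => ν (l2 i)) (fun i hi => by rw [hout i hi])
      (ρ := fun i => ρ (l' i)) (ρ' := fun i => ρ (l2 i)) (g := fun i => gp (l' i))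
      (g' := fun i => gp (l2 i))
      (fun i hi => by rw [hl' i hi]; exact h.glw g h.reg_g)
      (fun i hi => h.glw _ (hreg i hi))
      (fun i hi => by rw [hl' i hi]; exact h.gL g h.reg_g)
      (fun i hi => h.gL _ (hreg i hi)) h.κ_pos h.κ_le
      (fun i hi => h.κ_reg _ (hreg i hi)) (C := Cev E (gp g) (gp g))
      (fun i hi i' hi' => by rw [hl' i hi, hl' i' hi'])
    refine h1.trans (add_le_add (Finset.sum_le_sum fun b _ => ?_) le_rfl)
    refine mul_le_mul' le_rfl (le_of_eq ?_)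
    unfold GE
    rw [← lintegral_add_left (measurable_GVn T E _ z)]
    refine lintegral_congr fun v => ?_
    rw [ENNReal.ofReal_add (sq_nonneg _) (sq_nonneg _)]
  set GS : ℝ≥0∞ := ∑ b ∈ Q, GE A ν E e T l' b with hGS
  set GJ : ℝ≥0∞ := GE A ν E e T l2 y with hGJ
  have hcardK : (K.card : ℝ≥0∞) ≤ n := by exact_mod_cast hKn
  have hcardQ : (Q.card : ℝ≥0∞) ≤ n := by exact_mod_cast hn
  calc ∑ z ∈ K, YE A ν E e T l' z
      ≤ ∑ z ∈ K, (∑ b ∈ Q, c1 * (GE A ν E e T l' z + GE A ν E e T l' b) + k1 * GJ) := by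
        refine Finset.sum_le_sum fun z hz => (key z hz).trans (add_le_add ?_ le_rfl)
        exact Finset.sum_le_sum_of_subset (Finset.erase_subset _ _)
    _ = c1 * (Q.card * ∑ z ∈ K, GE A ν E e T l' z + K.card * GS) + K.card * (k1 * GJ) := by
        rw [Finset.sum_add_distrib, Finset.sum_const, nsmul_eq_mul]
        congr 1
        have e1 : ∀ z ∈ K, ∑ b ∈ Q, c1 * (GE A ν E e T l' z + GE A ν E e T l' b) =
            c1 * (Q.card * GE A ν E e T l' z + GS) := by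
          intro z _
          rw [← Finset.mul_sum, Finset.sum_add_distrib, Finset.sum_const, nsmul_eq_mul]
        rw [Finset.sum_congr rfl e1, ← Finset.mul_sum, Finset.sum_add_distrib, Finset.sum_const,
          nsmul_eq_mul, ← Finset.mul_sum]
    _ ≤ c1 * (n * GS + n * GS) + n * (k1 * GJ) := by
        gcongr
        exact Finset.sum_le_sum_of_subset hKQ
    _ = c1 * (2 * n) * GS + k1 * n * GJ := by ring

/-- probability of the configurations which agree with `l'` off `K` -/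
theorem sum_Pr_le (h : NLaw p ν g reg lam κg ag κ D ρ gp) {K : Finset ι} {n : ℕ}
    (hn : K.card ≤ n) {l' : ι → Λ} (hl' : ∀ z ∈ K, l' z = g) {S : Finset (ι → Λ)}
    (hS : ∀ l ∈ S, ∀ z ∉ K, l z = l' z) :
    ∑ l ∈ S, Pr p l ≤ ENNReal.ofReal (1 / p g) ^ n * Pr p l' := by
  classical
  set P : ℝ≥0∞ := ∏ k ∈ Kᶜ, ENNReal.ofReal (p (l' k)) with hP
  have hw : ∀ l ∈ S, Pr p l = P * ∏ k ∈ K, ENNReal.ofReal (p (l k)) := by
    intro l hl
    unfold Pr
    rw [ENNReal.ofReal_prod_of_nonneg (fun k _ => h.p0 _), ← Finset.prod_mul_prod_compl K, mul_comm,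
      hP]
    congr 1
    refine Finset.prod_congr rfl fun k hk => ?_
    rw [hS l hl k (Finset.mem_compl.1 hk)]
  have hw' : P = ENNReal.ofReal (1 / p g) ^ K.card * Pr p l' := by
    have e1 : ∏ k ∈ K, ENNReal.ofReal (p (l' k)) = ENNReal.ofReal (p g) ^ K.card := by
      rw [← Finset.prod_const]
      exact Finset.prod_congr rfl fun k hk => by rw [hl' k hk]
    have e2 : ENNReal.ofReal (1 / p g) * ENNReal.ofReal (p g) = 1 := by
      have hg := h.pg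
      rw [← ENNReal.ofReal_mul (by positivity), one_div, inv_mul_cancel₀ hg.ne',
        ENNReal.ofReal_one]
    unfold Pr
    rw [ENNReal.ofReal_prod_of_nonneg (fun k _ => h.p0 _), ← Finset.prod_mul_prod_compl K, ← hP,
      e1, ← mul_assoc, ← mul_pow, e2, one_pow, one_mul]
  have h5 : (1 : ℝ≥0∞) ≤ ENNReal.ofReal (1 / p g) := by
    rw [← ENNReal.ofReal_one]
    refine ENNReal.ofReal_le_ofReal ?_
    rw [le_div_iff₀ h.pg]
    linarith [pg_le h]
  calc ∑ l ∈ S, Pr p l = P * ∑ l ∈ S, ∏ k ∈ K, ENNReal.ofReal (p (l k)) := by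
        rw [Finset.mul_sum]
        exact Finset.sum_congr rfl hw
    _ ≤ P * (∑ b, ENNReal.ofReal (p b)) ^ K.card := by
        refine mul_le_mul' le_rfl (sum_prod_le (fun b => ENNReal.ofReal (p b)) S
          fun l hl m hm z hz => ?_)
        rw [hS l hl z hz, hS m hm z hz]
    _ = P := by
        rw [← ENNReal.ofReal_sum_of_nonneg fun b _ => h.p0 b, h.p1, ENNReal.ofReal_one, one_pow,
          mul_one]
    _ ≤ _ := by
        rw [hw']
        exact mul_le_mul' (pow_mono_ennreal h5 hn) le_rfl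

/-- expected off-resonant energy of a function -/
noncomputable def FY (A : Matrix ι ι ℝ) (ν : Λ → Measure ℝ) (E : ℝ) (e : (ι → Λ) → ι → ℝ)
    (f : ι → ℝ) (l : ι → Λ) (b : ι) : ℝ≥0∞ :=
  ∫⁻ v, ENNReal.ofReal (Yf A (WV E (e l) v) f b) ∂Measure.pi fun z => ν (l z)

/-- expected energy density of a function -/
noncomputable def FM (A : Matrix ι ι ℝ) (ν : Λ → Measure ℝ) (E : ℝ) (e : (ι → Λ) → ι → ℝ)
    (f : ι → ℝ) (l : ι → Λ) (b : ι) : ℝ≥0∞ :=
  ∫⁻ v, ENNReal.ofReal (Mf A (WV E (e l) v) f b) ∂Measure.pi fun z => ν (l z)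

/-- constant of the exceptional terms -/
noncomputable def Ceps (p : Λ → ℝ) (D : Λ → ℝ) (g : Λ) (gp : Λ → GP) (lam κg ag E ε : ℝ)
    (n : ℕ) : ℝ≥0∞ :=
  4 * Csw p D g (lam + |E| + 1) κg ag n *
    (ENNReal.ofReal (Cev E (gp g) (gp g) * (8 * (lam + 1) * ε)) * (2 * n))

/-- constant of the target term -/
noncomputable def Ctar (p : Λ → ℝ) (D : Λ → ℝ) (g : Λ) (lam κg ag κ E ε : ℝ) (n : ℕ) : ℝ≥0∞ :=
  4 * Csw p D g (lam + |E| + 1) κg ag n * (ENNReal.ofReal (KBm E (lam + 1) κ ε n) * n)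

/-- additive constant -/
noncomputable def Cadd (p : Λ → ℝ) (D : Λ → ℝ) (g : Λ) (gp : Λ → GP) (lam κg ag κ E ε m Dm : ℝ)
    (n : ℕ) : ℝ≥0∞ :=
  ENNReal.ofReal (4 * m ^ 2) * ENNReal.ofReal (1 / p g) ^ n +
    (Ceps p D g gp lam κg ag E ε n * n + Ctar p D g lam κg ag κ E ε n) *
      ENNReal.ofReal (m ^ 2 * (Real.pi * Dm))

/-- **fixed region, fixed exterior, one function** -/
theorem fixed_one (hA : A.IsSymm)
    (h : NLaw p ν g reg lam κg ag κ D ρ gp) {E : ℝ}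
    {e : (ι → Λ) → ι → ℝ} (he : ∀ l z, 0 < e l z) (he1 : ∀ l z, e l z ≤ 1) {K Q : Finset ι}
    (hKQ : K ⊆ Q) {n : ℕ} (hn : Q.card ≤ n) {y : ι} (hy : y ∈ Q)
    (hcof : ∀ z (hz : z ∈ K), z ≠ y →
      CofLe A Q E (fun _ => 0) (lam + 1) (c2c E (lam + 1) n) ⟨z, hKQ hz⟩ ⟨y, hy⟩)
    {l' : ι → Λ} (hl' : ∀ z ∈ Q, l' z = g)
    {S : Finset (ι → Λ)} (hS : ∀ l ∈ S, ∀ z ∉ K, l z = l' z)
    (hloc : ∀ l ∈ S, ∀ z ∉ K, e l z = e l' z) {x : ι} (hx : x ∈ K)
    {l2 : ι → Λ} (hreg : ∀ z ∈ Q, reg (l2 z)) (hout : ∀ z ∉ Q, l2 z = l' z)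
    (heout : ∀ z ∉ Q, e l2 z = e l' z)
    {ε : ℝ} (hε : 0 < ε) (hε1 : ε ≤ 1 / 2) {f : ι → ℝ} {m : ℝ}
    (hf : ∀ z ∈ Q, |f z - f x| ≤ m) {Dm : ℝ} (hDg : DensLe Dm (ν g)) (hDy : DensLe Dm (ν (l2 y))) :
    ∑ l ∈ S, Pr p l * FY A ν E e f l x ≤
      Pr p l' * (Cadd p D g gp lam κg ag κ E ε m Dm n +
        Ceps p D g gp lam κg ag E ε n * ∑ w ∈ Q, FM A ν E e f l' w +
        Ctar p D g lam κg ag κ E ε n * FM A ν E e f l2 y) := by
  classical
  have hKn : K.card ≤ n := (Finset.card_le_card hKQ).trans hn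
  set T : (ι → ℂ) →ₗ[ℂ] EuclideanSpace ℂ ι := Tk (e l') Q f (f x) with hT
  have h1 : ∀ l ∈ S, FY A ν E e f l x ≤ 2 * YE A ν E e T l x + ENNReal.ofReal (4 * m ^ 2) := by
    intro l hl
    have h2 := lint_Yf_le (A := A) (E := E) hA (he l) (e0 := e l') (B := Q)
      (fun i hi => (hloc l hl i fun h => hi (hKQ h)).symm) (fun z => ν (l z)) (f := f)
      (fo := f x) (m := m) (x := x) (by
        rw [sub_self, abs_zero]
        exact (abs_nonneg _).trans (hf x (hKQ hx))) hf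
    refine h2.trans (add_le_add le_rfl (ENNReal.ofReal_le_ofReal ?_))
    nlinarith [he1 l x, he l x, sq_nonneg m]
  have hm0 : 0 ≤ m := (abs_nonneg _).trans (hf x (hKQ hx))
  have hfo : ∀ z ∈ Q, |f x - f z| ≤ m := fun z hz => by rw [abs_sub_comm]; exact hf z hz
  have h3 : ∀ b ∈ Q, GE A ν E e T l' b ≤ 2 * FM A ν E e f l' b +
      2 * ENNReal.ofReal (m ^ 2 * (Real.pi * Dm)) := by
    intro b hb
    have h4 := lint_GV_le (A := A) (E := E) hA (he l') (e0 := e l') (B := Q)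
      (fun i hi => rfl) (fun z => ν (l' z)) (f := f) (fo := f x) (m := m) (z := b) (hfo b hb)
      (D := Dm) (by rw [hl' b hb]; exact hDg)
    refine h4.trans (add_le_add le_rfl (le_of_eq ?_))
    rw [mul_assoc, ENNReal.ofReal_mul (by norm_num), ENNReal.ofReal_ofNat]
  have h5 : GE A ν E e T l2 y ≤ 2 * FM A ν E e f l2 y +
      2 * ENNReal.ofReal (m ^ 2 * (Real.pi * Dm)) := by
    have h4 := lint_GV_le (A := A) (E := E) hA (he l2) (e0 := e l') (B := Q)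
      (fun i hi => (heout i hi).symm) (fun z => ν (l2 z)) (f := f) (fo := f x) (m := m) (z := y)
      (hfo y hy) (D := Dm) hDy
    refine h4.trans (add_le_add le_rfl (le_of_eq ?_))
    rw [mul_assoc, ENNReal.ofReal_mul (by norm_num), ENNReal.ofReal_ofNat]
  have h6 := fib_one hA h he he1 hKQ hn hy hcof hl' hS hloc hx hreg hout heout hε hε1 T
  have h7 := sum_Pr_le h hKn (fun z hz => hl' z (hKQ hz)) hS
  set Cs := Csw p D g (lam + |E| + 1) κg ag n with hCs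
  set c1 : ℝ≥0∞ := ENNReal.ofReal (Cev E (gp g) (gp g) * (8 * (lam + 1) * ε)) with hc1
  set k1 : ℝ≥0∞ := ENNReal.ofReal (KBm E (lam + 1) κ ε n) with hk1
  set a0 : ℝ≥0∞ := ENNReal.ofReal (m ^ 2 * (Real.pi * Dm)) with ha0
  set P' := Pr p l' with hP'
  have hcardQ : (Q.card : ℝ≥0∞) ≤ n := by exact_mod_cast hn
  calc ∑ l ∈ S, Pr p l * FY A ν E e f l x
      ≤ ∑ l ∈ S, Pr p l * (2 * YE A ν E e T l x + ENNReal.ofReal (4 * m ^ 2)) :=
        Finset.sum_le_sum fun l hl => mul_le_mul' le_rfl (h1 l hl)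
    _ = 2 * ∑ l ∈ S, Pr p l * YE A ν E e T l x + ENNReal.ofReal (4 * m ^ 2) * ∑ l ∈ S, Pr p l := by
        rw [Finset.mul_sum, Finset.mul_sum, ← Finset.sum_add_distrib]
        exact Finset.sum_congr rfl fun l _ => by ring
    _ ≤ 2 * (Cs * (P' * (c1 * (2 * n) * ∑ b ∈ Q, (2 * FM A ν E e f l' b + 2 * a0) +
          k1 * n * (2 * FM A ν E e f l2 y + 2 * a0)))) +
          ENNReal.ofReal (4 * m ^ 2) * (ENNReal.ofReal (1 / p g) ^ n * P') := by
        refine add_le_add (mul_le_mul' le_rfl (h6.trans ?_)) (mul_le_mul' le_rfl h7)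
        refine mul_le_mul' le_rfl (mul_le_mul' le_rfl (add_le_add ?_ ?_))
        · exact mul_le_mul' le_rfl (Finset.sum_le_sum h3)
        · exact mul_le_mul' le_rfl h5
    _ = P' * (ENNReal.ofReal (4 * m ^ 2) * ENNReal.ofReal (1 / p g) ^ n +
          (4 * Cs * (c1 * (2 * n)) * Q.card + 4 * Cs * (k1 * n)) * a0 +
          4 * Cs * (c1 * (2 * n)) * ∑ w ∈ Q, FM A ν E e f l' w +
          4 * Cs * (k1 * n) * FM A ν E e f l2 y) := by
        rw [Finset.sum_add_distrib, ← Finset.mul_sum, Finset.sum_const, nsmul_eq_mul]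
        ring
    _ ≤ _ := by
        unfold Cadd Ceps Ctar
        gcongr

end P365T1.Normal
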